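import Vale.Agent.P134.LI.Defs
import Vale.Agent.P134.SM.Cut
import Mathlib.Analysis.SpecialFunctions.ImproperIntegrals
import Mathlib.MeasureTheory.Integral.ExpDecay

set_option linter.all false

/-! Euclidean geometry of `Fin 3 → ℝ`, the sets `Far B r`, the exponential weight `Gw`. -/

namespace Vale.Agent.P134.H930

open Vale.Agent.P134 Vale.Agent.P134.SM Vale.Agent.P134.LI MeasureTheory Filter Topology
open scoped ENNReal

/-! ### Euclidean norm -/

lemma eno_eq (x : R3) : eno x = ‖(WithLp.toLp 2 x : EuclideanSpace ℝ (Fin 3))‖ := by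
  rw [EuclideanSpace.norm_eq]; unfold eno esq; congr 1; simp [Real.norm_eq_abs, sq_abs]

lemma eno_add_le (x y : R3) : eno (x + y) ≤ eno x + eno y := by
  rw [eno_eq, eno_eq, eno_eq]
  exact norm_add_le (WithLp.toLp 2 x : EuclideanSpace ℝ (Fin 3)) (WithLp.toLp 2 y)

lemma eno_smul (t : ℝ) (x : R3) : eno (t • x) = |t| * eno x := by
  rw [eno_eq, eno_eq, ← Real.norm_eq_abs]
  exact norm_smul t (WithLp.toLp 2 x : EuclideanSpace ℝ (Fin 3))

lemma eno_neg (x : R3) : eno (-x) = eno x := by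
  rw [eno_eq, eno_eq]
  exact norm_neg (WithLp.toLp 2 x : EuclideanSpace ℝ (Fin 3))

lemma eno_zero : eno (0 : R3) = 0 := by
  rw [eno_eq]; exact norm_zero (E := EuclideanSpace ℝ (Fin 3))

lemma eno_sub_comm (x y : R3) : eno (x - y) = eno (y - x) := by
  rw [← eno_neg, neg_sub]

lemma eno_sub_le (x y z : R3) : eno (x - z) ≤ eno (x - y) + eno (y - z) := by
  have : x - z = (x - y) + (y - z) := by abel
  rw [this]; exact eno_add_le _ _

lemma eno_le_add (x y : R3) : eno x ≤ eno y + eno (x - y) := by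
  have : x = y + (x - y) := by abel
  conv_lhs => rw [this]
  exact eno_add_le _ _

lemma dsq_eq (x y : R3) : dsq y x = esq (x - y) := rfl

lemma mem_eb_iff {x y : R3} {R : ℝ} (hR : 0 ≤ R) : x ∈ eb y R ↔ eno (x - y) ≤ R := by
  rw [mem_eb_sqrt hR]; rfl

lemma abs_le_eno (x : R3) (i : Fin 3) : |x i| ≤ eno x := by
  have := norm_le_eno x
  exact (norm_le_pi_norm x i).trans this

/-! ### Far -/

lemma Far.sub {B : Set R3} {r s : ℝ} {x y : R3} (h : Far B r x) (hxy : eno (x - y) ≤ s) :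
    Far B (r - s) y := by
  intro b hb
  have h1 := h b hb
  have h2 := eno_sub_le x y b
  linarith

lemma Far.mono {B : Set R3} {r s : ℝ} {x : R3} (h : Far B r x) (hs : s ≤ r) : Far B s x :=
  fun b hb => hs.trans (h b hb)

lemma not_far {B : Set R3} {r : ℝ} {x : R3} (h : ¬ Far B r x) : ∃ b ∈ B, eno (x - b) < r := by
  unfold Far at h; push Not at h; exact h

lemma not_far_sub {B : Set R3} {r s : ℝ} {x y : R3} (h : ¬ Far B r x) (hxy : eno (x - y) ≤ s) :
    ¬ Far B (r + s) y := by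
  obtain ⟨b, hb, h1⟩ := not_far h
  intro h2
  have h3 := h2 b hb
  have h4 := eno_sub_le y x b
  rw [eno_sub_comm y x] at h4
  linarith

lemma Latt.countable {B : Set R3} (hB : Latt B) : B.Countable := by
  have : B ⊆ Set.range (fun m : Fin 3 → ℤ => (fun i => (m i : ℝ) : R3)) := by
    intro b hb
    choose m hm using hB b hb
    exact ⟨m, by funext i; exact (hm i).symm⟩
  exact (Set.countable_range _).mono this

/-! ### The weight -/

lemma eno_le_sqrt (x : R3) : eno x ≤ Real.sqrt (1 + esq x) := by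
  unfold eno; apply Real.sqrt_le_sqrt; linarith

lemma sqrt_one_add_le (x y : R3) :
    Real.sqrt (1 + esq x) ≤ Real.sqrt (1 + esq y) + eno (x - y) := by
  have hx := esq_nonneg x
  have hy := esq_nonneg y
  have h0 := eno_nonneg (x - y)
  have h1 := eno_le_add x y
  have h2 := eno_le_sqrt y
  have h3 := Real.sq_sqrt (show 0 ≤ 1 + esq y by linarith)
  have h4 := Real.sqrt_nonneg (1 + esq y)
  have h5 := eno_sq x
  have h6 := eno_sq y
  have h7 := eno_nonneg x
  have h8 := eno_nonneg y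
  rw [Real.sqrt_le_left (by positivity)]
  have h9 : eno x ^ 2 ≤ (eno y + eno (x - y)) ^ 2 := by gcongr
  nlinarith [mul_le_mul_of_nonneg_right h2 h0]

lemma Gw_pos (lam : ℝ) (x : R3) : 0 < Gw lam x := Real.exp_pos _

lemma Gw_le_one {lam : ℝ} (hl : 0 ≤ lam) (x : R3) : Gw lam x ≤ 1 := by
  unfold Gw
  rw [Real.exp_le_one_iff]
  have := Real.sqrt_nonneg (1 + esq x)
  nlinarith

lemma Gw_sq (lam : ℝ) (x : R3) : Gw lam x ^ 2 = Real.exp (-(2 * lam * Real.sqrt (1 + esq x))) := by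
  unfold Gw; rw [← Real.exp_nat_mul]; congr 1; push_cast; ring

lemma Gw_sq_le {lam : ℝ} (hl : 0 ≤ lam) (x y : R3) :
    Gw lam x ^ 2 ≤ Real.exp (2 * lam * eno (x - y)) * Gw lam y ^ 2 := by
  rw [Gw_sq, Gw_sq, ← Real.exp_add]
  apply Real.exp_le_exp.mpr
  have := sqrt_one_add_le y x
  rw [eno_sub_comm y x] at this
  nlinarith

lemma Gw_sq_le' {lam : ℝ} (hl : 0 ≤ lam) {x y : R3} {r : ℝ} (h : eno (x - y) ≤ r) :
    Gw lam x ^ 2 ≤ Real.exp (2 * lam * r) * Gw lam y ^ 2 := by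
  refine (Gw_sq_le hl x y).trans ?_
  have : (0:ℝ) ≤ Gw lam y ^ 2 := by positivity
  gcongr

/-- `|G(x)² - G(y)²| ≤ 2 λ r e^{2λr} G(x)²` for `|x - y| ≤ r`. -/
lemma abs_Gw_sq_sub_le {lam : ℝ} (hl : 0 ≤ lam) {x y : R3} {r : ℝ} (h : eno (x - y) ≤ r) :
    |Gw lam x ^ 2 - Gw lam y ^ 2| ≤ 2 * lam * r * Real.exp (2 * lam * r) * Gw lam x ^ 2 := by
  have hr : 0 ≤ r := (eno_nonneg _).trans h
  have h1 := Gw_sq_le' hl h
  have h2 := Gw_sq_le' hl (x := y) (y := x) (r := r) (by rwa [eno_sub_comm])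
  have hG : (0:ℝ) < Gw lam x ^ 2 := by have := Gw_pos lam x; positivity
  have hGy : (0:ℝ) < Gw lam y ^ 2 := by have := Gw_pos lam y; positivity
  have he : Real.exp (2 * lam * r) - 1 ≤ 2 * lam * r * Real.exp (2 * lam * r) := by
    have := Real.one_sub_le_exp_neg (2 * lam * r)
    have h3 : Real.exp (-(2 * lam * r)) * Real.exp (2 * lam * r) = 1 := by
      rw [← Real.exp_add]; simp
    have h4 := Real.exp_pos (2 * lam * r)
    nlinarith
  have he1 : 1 ≤ Real.exp (2 * lam * r) := Real.one_le_exp (by positivity)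
  rw [abs_le]
  constructor
  · -- Gy² - Gx² ≤ (e-1) Gx²
    nlinarith
  · -- Gx² - Gy² ≤ (e-1) Gy² ≤ (e - 1) ... use Gy² ≥ e^{-1} Gx²
    have h5 : Gw lam x ^ 2 * Real.exp (-(2 * lam * r)) ≤ Gw lam y ^ 2 := by
      rw [Real.exp_neg]
      rw [mul_inv_le_iff₀ (Real.exp_pos _)]
      linarith
    have h6 : 1 - Real.exp (-(2 * lam * r)) ≤ 2 * lam * r := by
      have := Real.one_sub_le_exp_neg (2 * lam * r); linarith
    have h7 : (0:ℝ) ≤ 2 * lam * r := by positivity
    nlinarith [mul_le_mul_of_nonneg_left h6 hG.le, mul_nonneg h7 hG.le,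
      mul_le_mul_of_nonneg_left he1 (mul_nonneg h7 hG.le)]

lemma continuous_Gw (lam : ℝ) : Continuous (Gw lam) := by
  unfold Gw
  have : Continuous (esq : R3 → ℝ) := continuous_esq
  fun_prop

lemma integrable_exp_abs {c : ℝ} (hc : 0 < c) : Integrable (fun t : ℝ => Real.exp (-c * |t|)) := by
  rw [← integrableOn_univ, ← Set.Iic_union_Ioi (a := (0:ℝ)), integrableOn_union]
  constructor
  · refine (integrableOn_exp_mul_Iic hc 0).congr_fun (fun t ht => ?_) measurableSet_Iic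
    simp only [Set.mem_Iic] at ht
    simp only [abs_of_nonpos ht]
    congr 1; ring
  · refine (exp_neg_integrableOn_Ioi 0 hc).congr_fun (fun t ht => ?_) measurableSet_Ioi
    simp only [Set.mem_Ioi] at ht
    simp only [abs_of_pos ht]

lemma integrable_Gw_sq {lam : ℝ} (hl : 0 < lam) : Integrable (fun x : R3 => Gw lam x ^ 2) := by
  have h1 : Integrable (fun x : R3 => ∏ i : Fin 3, Real.exp (-(2 * lam / 3) * |x i|)) :=
    Integrable.fintype_prod (f := fun _ : Fin 3 => fun t : ℝ => Real.exp (-(2 * lam / 3) * |t|))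
      fun i => integrable_exp_abs (by positivity)
  refine h1.mono' (by have := continuous_Gw lam; fun_prop) (Eventually.of_forall fun x => ?_)
  rw [Real.norm_eq_abs, abs_of_nonneg (by positivity), Gw_sq, ← Real.exp_sum]
  apply Real.exp_le_exp.mpr
  rw [Fin.sum_univ_three]
  have h := eno_le_sqrt x
  have a0 := abs_le_eno x 0
  have a1 := abs_le_eno x 1
  have a2 := abs_le_eno x 2
  nlinarith

/-- `Gw²` as an extended nonnegative function. -/
noncomputable def GE (lam : ℝ) (x : R3) : ℝ≥0∞ := ENNReal.ofReal (Gw lam x ^ 2)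

lemma measurable_GE (lam : ℝ) : Measurable (GE lam) := by
  unfold GE; have := continuous_Gw lam; fun_prop

lemma lintegral_GE_lt_top {lam : ℝ} (hl : 0 < lam) : ∫⁻ x, GE lam x < ⊤ := by
  have := (integrable_Gw_sq hl).lintegral_lt_top
  exact this

lemma GE_le {lam : ℝ} (hl : 0 ≤ lam) {x y : R3} {r : ℝ} (h : eno (x - y) ≤ r) :
    GE lam x ≤ ENNReal.ofReal (Real.exp (2 * lam * r)) * GE lam y := by
  unfold GE
  rw [← ENNReal.ofReal_mul (Real.exp_pos _).le]
  exact ENNReal.ofReal_le_ofReal (Gw_sq_le' hl h)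

lemma volume_eb' (y : R3) {R : ℝ} (hR : 0 ≤ R) : volume (eb y R) = ENNReal.ofReal (SM.vb 3 * R ^ 3) := by
  rw [← volume_eb y hR, ENNReal.ofReal_toReal (volume_eb_lt_top y R).ne]

/-- integral of `G²` over a ball. -/
lemma lintegral_GE_eb {lam : ℝ} (hl : 0 ≤ lam) (b : R3) {r : ℝ} (hr : 0 ≤ r) :
    ∫⁻ x in eb b r, GE lam x
      ≤ ENNReal.ofReal (Real.exp (2 * lam * r) * (SM.vb 3 * r ^ 3)) * GE lam b := by
  calc ∫⁻ x in eb b r, GE lam x
      ≤ ∫⁻ x in eb b r, ENNReal.ofReal (Real.exp (2 * lam * r)) * GE lam b := by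
        refine setLIntegral_mono (by fun_prop) fun x hx => ?_
        exact GE_le hl ((mem_eb_iff hr).mp hx)
    _ = _ := by
        rw [setLIntegral_const, volume_eb' b hr, ENNReal.ofReal_mul (Real.exp_pos _).le]
        ring

/-- the sum over `B`. -/
noncomputable def SB (lam : ℝ) (B : Set R3) : ℝ≥0∞ := ∑' b : B, GE lam b

/-- `∫ over {d < r} of G²` is at most `C r³ Σ_B G²`. -/
lemma lintegral_GE_near {lam : ℝ} (hl : 0 ≤ lam) {B : Set R3} (hB : Latt B) {r : ℝ} (hr : 0 ≤ r) :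
    ∫⁻ x in {x | ¬ Far B r x}, GE lam x
      ≤ ENNReal.ofReal (Real.exp (2 * lam * r) * (SM.vb 3 * r ^ 3)) * SB lam B := by
  have hc : Countable B := (Latt.countable hB).to_subtype
  have hsub : {x | ¬ Far B r x} ⊆ ⋃ b : B, eb (b : R3) r := by
    intro x hx
    obtain ⟨b, hb, h⟩ := not_far hx
    exact Set.mem_iUnion.mpr ⟨⟨b, hb⟩, (mem_eb_iff hr).mpr h.le⟩
  calc ∫⁻ x in {x | ¬ Far B r x}, GE lam x
      ≤ ∫⁻ x in ⋃ b : B, eb (b : R3) r, GE lam x := lintegral_mono_set hsub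
    _ ≤ ∑' b : B, ∫⁻ x in eb (b : R3) r, GE lam x := lintegral_iUnion_le _ _
    _ ≤ ∑' b : B, ENNReal.ofReal (Real.exp (2 * lam * r) * (SM.vb 3 * r ^ 3)) * GE lam b :=
        ENNReal.tsum_le_tsum fun b => lintegral_GE_eb hl b hr
    _ = _ := ENNReal.tsum_mul_left

lemma eno_int {m : Fin 3 → ℤ} {b b' : R3} (hb : ∀ i, ∃ m : ℤ, b i = m)
    (hb' : ∀ i, ∃ m : ℤ, b' i = m) (h : eno (b - b') < 1) : b = b' := by
  funext i
  obtain ⟨k, hk⟩ := hb i
  obtain ⟨l, hl⟩ := hb' i
  have h1 := abs_le_eno (b - b') i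
  have h2 : |(k : ℝ) - l| < 1 := by
    have : (b - b') i = (k : ℝ) - l := by simp [hk, hl]
    rw [← this]; exact lt_of_le_of_lt h1 h
  have h3 : |k - l| < 1 := by exact_mod_cast h2
  have h4 : k = l := by
    have := abs_lt.mp h3; omega
  rw [hk, hl, h4]

lemma SB_lt_top {lam : ℝ} (hl : 0 < lam) {B : Set R3} (hB : Latt B) : SB lam B < ⊤ := by
  have hc : Countable B := (Latt.countable hB).to_subtype
  have h1 : ∀ b : B, ENNReal.ofReal (SM.vb 3 * (1 / 4) ^ 3) * GE lam b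
      ≤ ENNReal.ofReal (Real.exp (2 * lam * (1 / 4))) * ∫⁻ x in eb (b : R3) (1 / 4), GE lam x := by
    intro b
    rw [← lintegral_const_mul _ (measurable_GE lam)]
    calc ENNReal.ofReal (SM.vb 3 * (1 / 4) ^ 3) * GE lam b
        = ∫⁻ x in eb (b : R3) (1 / 4), GE lam b := by
          rw [setLIntegral_const, volume_eb' _ (by norm_num)]; ring
      _ ≤ _ := by
          refine setLIntegral_mono ((measurable_GE lam).const_mul _) fun x hx => ?_
          apply GE_le hl.le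
          rw [eno_sub_comm]; exact (mem_eb_iff (by norm_num)).mp hx
  have h2 : ∑' b : B, ∫⁻ x in eb (b : R3) (1 / 4), GE lam x ≤ ∫⁻ x, GE lam x := by
    rw [← lintegral_iUnion (fun b => measurableSet_eb _ _)]
    · exact setLIntegral_le_lintegral _ _
    · intro b b' hbb
      rw [Function.onFun, Set.disjoint_left]
      intro x hx hx'
      apply hbb
      apply Subtype.ext
      refine eno_int (m := 0) (hB b b.2) (hB b' b'.2) ?_
      have a1 := (mem_eb_iff (by norm_num)).mp hx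
      have a2 := (mem_eb_iff (by norm_num)).mp hx'
      have a3 := eno_sub_le (b : R3) x b'
      rw [eno_sub_comm (b : R3) x] at a3
      linarith
  have h3 : ENNReal.ofReal (SM.vb 3 * (1 / 4) ^ 3) * SB lam B
      ≤ ENNReal.ofReal (Real.exp (2 * lam * (1 / 4))) * ∫⁻ x, GE lam x := by
    unfold SB
    rw [← ENNReal.tsum_mul_left]
    calc _ ≤ ∑' b : B, ENNReal.ofReal (Real.exp (2 * lam * (1 / 4))) * ∫⁻ x in eb (b : R3) (1 / 4), GE lam x :=
          ENNReal.tsum_le_tsum h1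
      _ = _ := ENNReal.tsum_mul_left
      _ ≤ _ := by gcongr
  have h4 : ENNReal.ofReal (SM.vb 3 * (1 / 4) ^ 3) * SB lam B < ⊤ :=
    lt_of_le_of_lt h3 (ENNReal.mul_lt_top ENNReal.ofReal_lt_top (lintegral_GE_lt_top hl))
  have h5 : ENNReal.ofReal (SM.vb 3 * (1 / 4) ^ 3) ≠ 0 := by
    have := vb_pos 3
    rw [Ne, ENNReal.ofReal_eq_zero, not_le]; positivity
  by_contra h6
  rw [not_lt, top_le_iff] at h6
  rw [h6, ENNReal.mul_top h5] at h4
  exact lt_irrefl _ h4

lemma SB_toReal {lam : ℝ} (B : Set R3) : (SB lam B).toReal = ∑' b : B, Gw lam b ^ 2 := by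
  unfold SB GE
  rw [ENNReal.tsum_toReal_eq (fun b => ENNReal.ofReal_ne_top)]
  refine tsum_congr fun b => ?_
  rw [ENNReal.toReal_ofReal (by positivity)]

end Vale.Agent.P134.H930
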