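import Vale.Agent.P134.H930.Slab

set_option linter.all false

/-! Sub-blocks of `StMIS` (exact statements). -/

namespace Vale.Agent.P134.H930

open Vale.Agent.P134 Vale.Agent.P134.SM Vale.Agent.P134.LI Vale.Agent.P134.H377 MeasureTheory Filter Topology
open scoped ENNReal

/-- numerical conditions on the parameters. -/
structure Num (s3 K ε δ W L κ lam : ℝ) : Prop where
  cst : Cst s3 K
  ε0 : 0 < ε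
  ε1 : ε < 1
  δ0 : 0 < δ
  δ1 : 4 * K * (1 + (4 * s3 + 2)) ^ 4 * Real.exp (2 * Real.sqrt 2 * (4 * s3 + 2)) * δ ≤ 1
  δ2 : 16 * K ^ 2 * Real.exp 4 * δ ≤ ε
  L1 : 1 ≤ L
  LW : 2 * (L + (4 * s3 + 2)) ≤ W
  κ0 : 0 < κ
  κ1 : 2 * κ ^ 2 * Real.exp (2 * Real.sqrt 2 * L) ≤ 1
  l0 : 0 < lam
  l1 : 4 * W * lam ≤ 1

/-- the data of `StMIS`. -/
structure Dat (s3 δ W : ℝ) (u : R3 → ℝ) (B : Set R3) (w : ℝ → ℝ) (om v : R3 → ℝ) : Prop where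
  hu : Sol u
  hl : ∀ x, |u x| < 1
  hB : Latt B
  hq : ∀ x, |phi u x| ≤ s3 + 1 → Far B (W / 4) x → qq u x ≤ δ
  hw : Continuous w
  hw0 : ∀ s, 0 ≤ w s ∧ w s ≤ 1
  hws : ∀ s, s3 ≤ |s| → w s = 0
  hom : Continuous om
  hom0 : ∀ x, 0 ≤ om x ∧ om x ≤ 1
  hom1 : ∀ x, ¬ Far B (W / 4) x → om x = 0
  hom2 : ∀ x, Far B (W / 2) x → om x = 1
  hv : Measurable v
  hv1 : ∀ x, |v x| ≤ 1
  hv2 : ∀ x, v x ≠ 0 → Far B W x ∧ ¬ Far B (2 * W) x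

/-- integrand on the target side `(z, c)`. -/
noncomputable def h1 (lam : ℝ) (u : R3 → ℝ) (w : ℝ → ℝ) (v : R3 → ℝ) (z : R3 × ℝ) : ℝ :=
  w z.2 * (Gw lam z.1 ^ 2 * ff u z.1 ^ 2 * v z.1)

/-- integrand on the tube `(x, t)`. -/
noncomputable def h2 (ε κ lam : ℝ) (u : R3 → ℝ) (w : ℝ → ℝ) (om v : R3 → ℝ) (z : R3 × ℝ) : ℝ :=
  w (phi u z.1) * rr u z.1 * (Gw lam z.1 * om z.1) ^ 2 *
    (jj u z.1 z.2 * prf ε κ u z.1 z.2 ^ 2 * v (xt u z.1 z.2))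

/-- pull-back of `h1`. -/
noncomputable def ht (lam : ℝ) (u : R3 → ℝ) (w : ℝ → ℝ) (v : R3 → ℝ) (z : R3 × ℝ) : ℝ :=
  rr u z.1 * jj u z.1 z.2 * h1 lam u w v (Theta u z)

/-- the `D`-level quantity. -/
noncomputable def QE (lam W : ℝ) (u : R3 → ℝ) (B : Set R3) (w : ℝ → ℝ) : ℝ≥0∞ :=
  ∫⁻ x in {x | Far B (W / 2) x ∧ ¬ Far B (3 * W) x},
    ENNReal.ofReal (w (phi u x) * rr u x * qq u x * Gw lam x ^ 2)

/-- bounds on the support of `prf` (used in StPA, StPB1, StPB2): in the slab `q ≤ δ` and for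
`|t| ≤ dep + 1` one has `|J| ≤ 2`. -/
def StJJ : Prop := ∀ (s3 K ε δ W L κ lam : ℝ), Num s3 K ε δ W L κ lam → ∀ u : R3 → ℝ, Sol u →
  (∀ x, |u x| < 1) → ∀ x t, qq u x ≤ δ → |t| ≤ dep ε κ u x + 1 → |jj u x t| ≤ 2

/-- piece A. On `MM`: `prf = g1 (φ + t)` by `κ1`; if `v (x~) ≠ 0` then `Far (W/2) x`, `om x = 1`,
`¬ Far (3W) x`; `|G(x~)² - G(x)²| ≤ 2 λ L e^{2λL} G(x)²` (`abs_Gw_sq_sub_le`), `Cst.fsq`. -/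
def StPA : Prop := ∀ (s3 K ε δ W L κ lam : ℝ), Num s3 K ε δ W L κ lam →
  ∀ (u : R3 → ℝ) (B : Set R3) (w : ℝ → ℝ) (om v : R3 → ℝ), Dat s3 δ W u B w om v →
  ∫⁻ z in MM s3 K L u, ENNReal.ofReal |ht lam u w v z - h2 ε κ lam u w om v z|
    ≤ ENNReal.ofReal (6 * K * (1 + L) ^ 5) * QE lam W u B w
      + ENNReal.ofReal (24 * lam * (1 + L) ^ 2) * ∫⁻ x in {x | ¬ Far B (3 * W) x}, GE lam x

/-- piece B1: `|t| ≤ L` but not in `MM`, i.e. `e^{-2√2|t|} < 4K(1+L)^4 q`. -/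
def StPB1 : Prop := ∀ (s3 K ε δ W L κ lam : ℝ), Num s3 K ε δ W L κ lam →
  ∀ (u : R3 → ℝ) (B : Set R3) (w : ℝ → ℝ) (om v : R3 → ℝ), Dat s3 δ W u B w om v →
  ∫⁻ z in {z : R3 × ℝ | |z.2| ≤ L} \ MM s3 K L u, ENNReal.ofReal |h2 ε κ lam u w om v z|
    ≤ ENNReal.ofReal (128 * K * Real.exp (2 * Real.sqrt 2 * s3) * (1 + L) ^ 5) * QE lam W u B w

/-- piece B2: `|t| > L` (`g1_sq_shift`, `not_far_sub`, `lintegral_GE_near`, Tonelli). -/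
def StPB2 : Prop := ∀ s3 : ℝ, 0 < s3 → ∃ C : ℝ, 0 < C ∧
  ∀ (K ε δ W L κ lam : ℝ), Num s3 K ε δ W L κ lam →
  ∀ (u : R3 → ℝ) (B : Set R3) (w : ℝ → ℝ) (om v : R3 → ℝ), Dat s3 δ W u B w om v →
  ∫⁻ z in {z : R3 × ℝ | L < |z.2|}, ENNReal.ofReal |h2 ε κ lam u w om v z|
    ≤ ENNReal.ofReal (C * W ^ 3 * Real.exp (-L)) * SB lam B

/-- piece C, pointwise. -/
def StPC : Prop := ∀ s3 K : ℝ, Cst s3 K → ∃ C : ℝ, 0 < C ∧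
  ∀ (ε δ W L κ lam : ℝ), Num s3 K ε δ W L κ lam →
  ∀ (u : R3 → ℝ) (B : Set R3) (w : ℝ → ℝ) (om v : R3 → ℝ), Dat s3 δ W u B w om v →
  ∀ (z : R3) (c : ℝ), v z ≠ 0 → w c ≠ 0 → (z, c) ∉ Theta u '' MM s3 K L u →
  ff u z ^ 2 ≤ C * Real.exp (-(2 * L)) ∨
  ENNReal.ofReal (ff u z ^ 2) * (∫⁻ s, ENNReal.ofReal (w s))
    ≤ ENNReal.ofReal (C * (1 + L) ^ 4 * Real.exp (L / 480)) *
      ∫⁻ y in eb z (L + (4 * s3 + 2)), ENNReal.ofReal (w (phi u y) * (rr u y * qq u y))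

end Vale.Agent.P134.H930
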