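import Vale.Agent.P134.H930.Mass
import Vale.Agent.P134.H930.MISdef

set_option linter.all false

/-! Piece C: points `(z, c)` which are not in the image of `MM`. -/

namespace Vale.Agent.P134.H930

open Vale.Agent.P134 Vale.Agent.P134.SM Vale.Agent.P134.LI Vale.Agent.P134.H377 MeasureTheory Filter Topology
open scoped ENNReal

variable {u : R3 → ℝ} {x y z : R3} {t : ℝ} {s3 K L ε δ W κ lam : ℝ} {B : Set R3} {w : ℝ → ℝ}
  {om v : R3 → ℝ}

lemma phi_of_zero (h : u x = 0) : phi u x = 0 := by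
  unfold phi; rw [h]; simp

lemma abs_lt_of_w (hws : ∀ s, s3 ≤ |s| → w s = 0) {c : ℝ} (hc : w c ≠ 0) : |c| < s3 := by
  by_contra h
  exact hc (hws c (not_lt.mp h))

lemma Num.s3pos (n : Num s3 K ε δ W L κ lam) : 0 < s3 := n.cst.s3pos
lemma Num.Kpos (n : Num s3 K ε δ W L κ lam) : 0 < K := by have := n.cst.one_le; linarith

/-- `4 K (1+T)^4 e^{2√2T} q ≤ 1` for `T ≤ 4 s3 + 2`, at points with `q ≤ δ`. -/
lemma Num.small (n : Num s3 K ε δ W L κ lam) {T q : ℝ} (hT0 : 0 ≤ T) (hT : T ≤ 4 * s3 + 2)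
    (hq : q ≤ δ) : 4 * K * (1 + T) ^ 4 * Real.exp (2 * Real.sqrt 2 * T) * q ≤ 1 := by
  have hK := n.Kpos
  have hs := n.s3pos
  refine le_trans ?_ n.δ1
  have hδ := n.δ0
  calc 4 * K * (1 + T) ^ 4 * Real.exp (2 * Real.sqrt 2 * T) * q
      ≤ 4 * K * (1 + T) ^ 4 * Real.exp (2 * Real.sqrt 2 * T) * δ := by gcongr
    _ ≤ _ := by gcongr

lemma Num.δ4 (n : Num s3 K ε δ W L κ lam) : 4 * δ ≤ 1 := by
  have h := n.small (T := 0) le_rfl (by linarith [n.s3pos]) (q := δ) le_rfl
  have hK := n.cst.one_le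
  have hδ := n.δ0
  simp only [add_zero, one_pow, mul_one, mul_zero, Real.exp_zero] at h
  nlinarith

/-- points near the zone are good. -/
lemma Dat.good (d : Dat s3 δ W u B w om v) (n : Num s3 K ε δ W L κ lam) {z y : R3}
    (hz : Far B W z) (hzy : eno (z - y) ≤ L + (4 * s3 + 2)) (hy : |phi u y| ≤ s3) :
    qq u y ≤ δ := by
  refine d.hq y (by linarith) ?_
  have h1 := Far.sub hz hzy
  refine Far.mono h1 ?_
  have := n.LW
  have := n.L1
  have := n.s3pos
  linarith

/-- near a zero there is a level point. -/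
lemma level_of_zero (d : Dat s3 δ W u B w om v) (n : Num s3 K ε δ W L κ lam) {z y0 : R3}
    (hz : Far B W z) (hzy : eno (z - y0) ≤ L) (h0 : u y0 = 0) {c : ℝ} (hc : |c| < s3) :
    ∃ y, phi u y = c ∧ eno (y - y0) ≤ 2 * s3 := by
  have hs := n.s3pos
  have hφ : phi u y0 = 0 := phi_of_zero h0
  have hq := d.good n hz (by linarith) (show |phi u y0| ≤ s3 by rw [hφ, abs_zero]; exact hs.le)
  have hK := n.Kpos
  have hq0 := H586.qq_nonneg d.hu d.hl y0
  refine level_pt n.cst d.hu d.hl (by rw [hφ, abs_zero]; exact hs.le) (by positivity) ?_ ?_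
  · have h1 := n.small (T := 2 * s3) (by positivity) (by linarith) hq
    have h2 : K * (1 + 2 * s3) ^ 2 * Real.exp (2 * Real.sqrt 2 * (2 * s3)) * qq u y0
        ≤ K * (1 + 2 * s3) ^ 4 * Real.exp (2 * Real.sqrt 2 * (2 * s3)) * qq u y0 := by
      have : (1 + 2 * s3) ^ 2 ≤ (1 + 2 * s3) ^ 4 := pow_le_pow_right₀ (by linarith) (by norm_num)
      gcongr
    have h3 : 0 ≤ K * (1 + 2 * s3) ^ 4 * Real.exp (2 * Real.sqrt 2 * (2 * s3)) * qq u y0 := by
      positivity
    linarith
  · rw [hφ, sub_zero]; linarith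

/-- decay of `f` if no zero lies in the ball of radius `r - 2 s3`. -/
lemma ff_decay (d : Dat s3 δ W u B w om v) (n : Num s3 K ε δ W L κ lam) {z : R3}
    (hz : Far B W z) {r c : ℝ} (hr0 : 0 ≤ r) (hr : r ≤ L) (hc : |c| < s3)
    (hno : ∀ y, phi u y = c → r ≤ eno (y - z)) :
    ff u z ≤ K * Real.exp (-((Real.sqrt 2 - 1 / 960) * (r - 2 * s3))) := by
  have hs := n.s3pos
  have hK := n.Kpos
  have h := n.cst.dec u d.hu z (max 0 (r - 2 * s3)) (le_max_left _ _) ?_
  · refine h.trans ?_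
    have h2 := one_lt_s2
    have h3 : r - 2 * s3 ≤ max 0 (r - 2 * s3) := le_max_right _ _
    have h4 : 0 ≤ Real.sqrt 2 - 1 / 960 := by linarith
    have h5 : (Real.sqrt 2 - 1 / 960) * (r - 2 * s3)
        ≤ (Real.sqrt 2 - 1 / 960) * max 0 (r - 2 * s3) := mul_le_mul_of_nonneg_left h3 h4
    gcongr
  · intro y0 hy0 h0
    rcases le_total (r - 2 * s3) 0 with hc0 | hc0
    · rw [max_eq_left hc0] at hy0
      exact absurd hy0 (not_lt.mpr (eno_nonneg _))
    · rw [max_eq_right hc0] at hy0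
      obtain ⟨y, hy, hyd⟩ := level_of_zero d n hz (by linarith) h0 hc
      have h1 := hno y hy
      have h2 := eno_sub_le y y0 z
      rw [eno_sub_comm y0 z] at h2
      linarith

theorem stPC : StPC := by
  intro s3 K hC
  have hs := hC.s3pos
  have hK1 := hC.one_le
  have hK : 0 < K := by linarith
  have hcm := cm_pos hs
  refine ⟨K ^ 2 * Real.exp (6 * s3) + 4 * K ^ 3 * Real.exp (6 * s3) * cm s3, by positivity, ?_⟩
  intro ε δ W L κ lam n u B w om v d z c hv hwc hnot
  obtain ⟨hF, hF2⟩ := d.hv2 z hv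
  have hc := abs_lt_of_w d.hws hwc
  have hL1 := n.L1
  have hs2 := s2_lt
  have hs1 := one_lt_s2
  have hff := ff_nonneg d.hl z
  by_cases hn : ∃ y, phi u y = c ∧ eno (y - z) ≤ L
  · -- case 2
    right
    obtain ⟨y, t, hTh, hyc, ht, hd, hmin⟩ := exists_foot d.hu d.hl hn (by
      intro y hy hyd
      have h1 := d.good n hF (y := y) (by rw [eno_sub_comm]; linarith) (by rw [hy]; exact hc.le)
      have := n.δ4
      have := n.δ0
      linarith)
    have hq0 := H586.qq_nonneg d.hu d.hl y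
    have hbig : 1 < 4 * K * (1 + L) ^ 4 * Real.exp (2 * Real.sqrt 2 * |t|) * qq u y := by
      by_contra hcon
      apply hnot
      rw [← hTh]
      exact Set.mem_image_of_mem _ ⟨by simp only; rw [hyc]; exact hc.le, ht, not_lt.mp hcon⟩
    have h1 := ff_decay d n hF (abs_nonneg t) ht hc hmin
    have h2 : ff u z ^ 2 ≤ K ^ 2 * (Real.exp (6 * s3) * Real.exp (L / 480) *
        Real.exp (-(2 * Real.sqrt 2 * |t|))) := by
      calc ff u z ^ 2 ≤ (K * Real.exp (-((Real.sqrt 2 - 1 / 960) * (|t| - 2 * s3)))) ^ 2 := by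
            gcongr
        _ = K ^ 2 * Real.exp (-(2 * (Real.sqrt 2 - 1 / 960) * (|t| - 2 * s3))) := by
            rw [mul_pow]; congr 1; rw [sq, ← Real.exp_add]; congr 1; ring
        _ ≤ K ^ 2 * Real.exp (6 * s3 + L / 480 + -(2 * Real.sqrt 2 * |t|)) := by
            have : -(2 * (Real.sqrt 2 - 1 / 960) * (|t| - 2 * s3))
                ≤ 6 * s3 + L / 480 + -(2 * Real.sqrt 2 * |t|) := by nlinarith
            gcongr
        _ = _ := by rw [Real.exp_add, Real.exp_add]
    have h3 : Real.exp (-(2 * Real.sqrt 2 * |t|)) ≤ 4 * K * (1 + L) ^ 4 * qq u y := by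
      rw [Real.exp_neg, inv_le_iff_one_le_mul₀ (Real.exp_pos _)]
      refine hbig.le.trans (le_of_eq (by ring))
    have h4 : ff u z ^ 2 ≤ (4 * K ^ 3 * Real.exp (6 * s3) * (1 + L) ^ 4 * Real.exp (L / 480))
        * qq u y := by
      calc ff u z ^ 2 ≤ _ := h2
        _ ≤ K ^ 2 * (Real.exp (6 * s3) * Real.exp (L / 480) * (4 * K * (1 + L) ^ 4 * qq u y)) := by
            gcongr
        _ = _ := by ring
    have h5 := slab_mass hC d.hu d.hl y (by rw [hyc]; exact hc.le) (by
      intro y' hy' hφ'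
      have h6 := d.good n hF (y := y') (by
        have := eno_sub_le z y y'
        rw [eno_sub_comm z y, eno_sub_comm y y', hd] at this
        linarith) hφ'
      exact n.small (by positivity) (by linarith) h6) d.hw.measurable (fun s => (d.hw0 s).1) d.hws
    have hA : 0 ≤ 4 * K ^ 3 * Real.exp (6 * s3) * (1 + L) ^ 4 * Real.exp (L / 480) := by
      positivity
    calc ENNReal.ofReal (ff u z ^ 2) * (∫⁻ s, ENNReal.ofReal (w s))
        ≤ ENNReal.ofReal ((4 * K ^ 3 * Real.exp (6 * s3) * (1 + L) ^ 4 * Real.exp (L / 480))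
            * qq u y) * (∫⁻ s, ENNReal.ofReal (w s)) :=
          mul_le_mul_left (ENNReal.ofReal_le_ofReal h4) _
      _ = ENNReal.ofReal (4 * K ^ 3 * Real.exp (6 * s3) * (1 + L) ^ 4 * Real.exp (L / 480))
            * (ENNReal.ofReal (qq u y) * (∫⁻ s, ENNReal.ofReal (w s))) := by
          rw [ENNReal.ofReal_mul hA]; ring
      _ ≤ ENNReal.ofReal (4 * K ^ 3 * Real.exp (6 * s3) * (1 + L) ^ 4 * Real.exp (L / 480))
            * (ENNReal.ofReal (cm s3) * ∫⁻ y in eb y (4 * s3 + 2),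
          ENNReal.ofReal (w (phi u y) * (rr u y * qq u y))) := mul_le_mul_right h5 _
      _ = ENNReal.ofReal (4 * K ^ 3 * Real.exp (6 * s3) * (1 + L) ^ 4 * Real.exp (L / 480) * cm s3)
            * ∫⁻ y in eb y (4 * s3 + 2), ENNReal.ofReal (w (phi u y) * (rr u y * qq u y)) := by
          rw [ENNReal.ofReal_mul hA]; ring
      _ ≤ _ := by
          have e1 : 4 * K ^ 3 * Real.exp (6 * s3) * (1 + L) ^ 4 * Real.exp (L / 480) * cm s3
              ≤ (K ^ 2 * Real.exp (6 * s3) + 4 * K ^ 3 * Real.exp (6 * s3) * cm s3) * (1 + L) ^ 4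
                * Real.exp (L / 480) := by
            have : 0 ≤ K ^ 2 * Real.exp (6 * s3) * (1 + L) ^ 4 * Real.exp (L / 480) := by
              positivity
            nlinarith
          have e2 : eb y (4 * s3 + 2) ⊆ eb z (L + (4 * s3 + 2)) := by
            intro y' hy'
            rw [mem_eb_iff (by positivity)] at hy' ⊢
            have := eno_sub_le y' y z
            linarith
          exact mul_le_mul' (ENNReal.ofReal_le_ofReal e1) (lintegral_mono_set e2)
  · -- case 1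
    left
    push Not at hn
    have h1 := ff_decay d n hF (by linarith : (0:ℝ) ≤ L) le_rfl hc (fun y hy => (hn y hy).le)
    calc ff u z ^ 2 ≤ (K * Real.exp (-((Real.sqrt 2 - 1 / 960) * (L - 2 * s3)))) ^ 2 := by
          gcongr
      _ = K ^ 2 * Real.exp (-(2 * (Real.sqrt 2 - 1 / 960) * (L - 2 * s3))) := by
          rw [mul_pow]; congr 1; rw [sq, ← Real.exp_add]; congr 1; ring
      _ ≤ K ^ 2 * Real.exp (6 * s3 + -(2 * L)) := by
          have : -(2 * (Real.sqrt 2 - 1 / 960) * (L - 2 * s3)) ≤ 6 * s3 + -(2 * L) := by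
            have a1 : 1 ≤ Real.sqrt 2 - 1 / 960 := by
              have : (1 + 1/960 : ℝ) < Real.sqrt 2 := by
                rw [Real.lt_sqrt (by norm_num)]; norm_num
              linarith
            nlinarith
          gcongr
      _ = K ^ 2 * Real.exp (6 * s3) * Real.exp (-(2 * L)) := by rw [Real.exp_add]; ring
      _ ≤ _ := by
          have : 0 ≤ 4 * K ^ 3 * Real.exp (6 * s3) * cm s3 * Real.exp (-(2 * L)) := by positivity
          nlinarith

end Vale.Agent.P134.H930
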