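import Vale.Agent.P134.H930.Slab

set_option linter.all false

/-! The slab mass lemma. -/

namespace Vale.Agent.P134.H930

open Vale.Agent.P134 Vale.Agent.P134.SM Vale.Agent.P134.LI Vale.Agent.P134.H377 MeasureTheory Filter Topology
open scoped ENNReal

variable {u : R3 → ℝ} {x y z : R3} {t : ℝ} {s3 K L : ℝ}

lemma setLIntegral_prod_mul (s : Set R3) (t : Set ℝ) {f : R3 → ℝ≥0∞} {g : ℝ → ℝ≥0∞}
    (hf : Measurable f) (hg : Measurable g) :
    ∫⁻ z in s ×ˢ t, f z.1 * g z.2 = (∫⁻ x in s, f x) * ∫⁻ c in t, g c := by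
  rw [Measure.volume_eq_prod, ← Measure.prod_restrict,
    lintegral_prod_mul hf.aemeasurable hg.aemeasurable]

lemma gs_pos_of_q (h : qq u x < 1) : 0 < gs (phi u) x := by
  unfold qq at h; linarith

/-- nearest points: every `(z, c)` near a level point is in the image of the tube. -/
lemma exists_foot (hu : Sol u) (hl : ∀ x, |u x| < 1) {T c : ℝ} {z : R3}
    (hn : ∃ y, phi u y = c ∧ eno (y - z) ≤ T)
    (hq : ∀ y, phi u y = c → eno (y - z) ≤ T → qq u y < 1) :
    ∃ (y : R3) (t : ℝ), Theta u (y, t) = (z, c) ∧ phi u y = c ∧ |t| ≤ T ∧ eno (y - z) = |t| ∧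
      ∀ y', phi u y' = c → |t| ≤ eno (y' - z) := by
  obtain ⟨y', h1, h2⟩ := hn
  obtain ⟨⟨y, t⟩, hV, ht, hTh⟩ := exists_mem_V (L := T) (z := (z, c))
    ((phi_c2 hu hl).of_le (by norm_num)) ⟨y', h1, h2⟩
    (fun x hx hd => gs_pos_of_q (hq x hx hd))
  have hz : foot (phi u) y t = z := congrArg Prod.fst hTh
  have hc : phi u y = c := congrArg Prod.snd hTh
  refine ⟨y, t, hTh, hc, ht, ?_, ?_⟩
  · have := ed_foot hV.1 t
    simp only at this
    rw [hz] at this
    exact this
  · intro y' hy'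
    have := hV.2 y' (by rw [hy']; exact hc.symm)
    simp only at this
    rw [hz] at this
    exact this

/-- the constant of the slab mass lemma. -/
noncomputable def cm (s3 : ℝ) : ℝ :=
  4 * (4 * s3 + 1) * cq s3 (4 * s3 + 2) / (SM.vb 3 * (1 / 2) ^ 3)

lemma cm_pos (h : 0 < s3) : 0 < cm s3 := by
  unfold cm
  have := cq_pos s3 (4 * s3 + 2)
  have := SM.vb_pos 3
  positivity

theorem slab_mass (h : Cst s3 K) (hu : Sol u) (hl : ∀ x, |u x| < 1) (x0 : R3)
    (hx0 : |phi u x0| ≤ s3)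
    (hq : ∀ y, eno (y - x0) ≤ 4 * s3 + 2 → |phi u y| ≤ s3 →
      4 * K * (1 + (4 * s3 + 1)) ^ 4 * Real.exp (2 * Real.sqrt 2 * (4 * s3 + 1)) * qq u y ≤ 1)
    {w : ℝ → ℝ} (hwm : Measurable w) (hw0 : ∀ s, 0 ≤ w s) (hws : ∀ s, s3 ≤ |s| → w s = 0) :
    ENNReal.ofReal (qq u x0) * ∫⁻ c, ENNReal.ofReal (w c)
      ≤ ENNReal.ofReal (cm s3) * ∫⁻ y in eb x0 (4 * s3 + 2),
          ENNReal.ofReal (w (phi u y) * (rr u y * qq u y)) := by
  have hs := h.s3pos
  have hK := h.one_le
  set T := 4 * s3 + 1 with hT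
  have hT0 : 0 < T := by positivity
  have hR : 4 * s3 + 2 = T + 1 := by rw [hT]; ring
  rw [hR] at hq ⊢
  have hR0 : 0 ≤ T + 1 := by positivity
  set M' := MM s3 K T u ∩ {z | z.1 ∈ eb x0 (T + 1)} with hM'
  have hM'm : MeasurableSet M' :=
    (measurableSet_MM hu hl).inter (measurable_fst (measurableSet_eb x0 (T + 1)))
  have hinj : Set.InjOn (Theta u) M' := (MM_inj h hu hl).mono Set.inter_subset_left
  have hrr : ∀ z ∈ M', 0 < rr u z.1 := fun z hz => by
    have := MM_rr h hu hl hz.1; linarith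
  have hjj : ∀ z ∈ M', 0 ≤ jj u z.1 z.2 := fun z hz => by
    have := (MM_jj h hu hl hz.1).1; linarith
  have hsub : (eb x0 (1 / 2)) ×ˢ {c : ℝ | |c| ≤ s3} ⊆ Theta u '' M' := by
    rintro ⟨z, c⟩ ⟨hz, hc⟩
    simp only [Set.mem_setOf_eq] at hc
    rw [mem_eb_iff (by norm_num)] at hz
    simp only at hz
    have hq0 := hq x0 (by simpa [eno_zero] using hR0) hx0
    have hqn := H586.qq_nonneg hu hl x0
    obtain ⟨y', hy', hyd⟩ := level_pt h hu hl hx0 (T := 4 * s3) (by positivity) (by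
      have e1 : K * (1 + 4 * s3) ^ 2 * Real.exp (2 * Real.sqrt 2 * (4 * s3)) * qq u x0
          ≤ K * (1 + T) ^ 4 * Real.exp (2 * Real.sqrt 2 * T) * qq u x0 := by
        have e2 : (1 + 4 * s3) ^ 2 ≤ (1 + T) ^ 4 := by
          calc (1 + 4 * s3) ^ 2 ≤ (1 + T) ^ 2 := by gcongr; linarith
            _ ≤ (1 + T) ^ 4 := pow_le_pow_right₀ (by linarith) (by norm_num)
        have e3 : 4 * s3 ≤ T := by linarith
        gcongr
      linarith) (c := c) (by
      rw [abs_le]
      have a := abs_le.mp hc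
      have b := abs_le.mp hx0
      constructor <;> linarith [a.1, a.2, b.1, b.2])
    have hyz : eno (y' - z) ≤ T := by
      have := eno_sub_le y' x0 z
      rw [eno_sub_comm x0 z] at this
      linarith
    have hball : ∀ y, eno (y - z) ≤ T → eno (y - x0) ≤ T + 1 := fun y hy => by
      have := eno_sub_le y z x0
      linarith
    have hqM : ∀ y, phi u y = c → eno (y - z) ≤ T →
        4 * K * (1 + T) ^ 4 * Real.exp (2 * Real.sqrt 2 * T) * qq u y ≤ 1 := fun y hy hd =>
      hq y (hball y hd) (by rw [hy]; exact hc)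
    obtain ⟨y, t, hTh, hyc, ht, hd, -⟩ := exists_foot hu hl ⟨y', hy', hyz⟩ (by
      intro y hy hd
      have h1 := hqM y hy hd
      have hqn := H586.qq_nonneg hu hl y
      have h2 : 4 ≤ 4 * K * (1 + T) ^ 4 * Real.exp (2 * Real.sqrt 2 * T) := by
        have a1 : 1 ≤ (1 + T) ^ 4 := one_le_pow₀ (by linarith)
        have a2 : 1 ≤ Real.exp (2 * Real.sqrt 2 * T) := Real.one_le_exp (by positivity)
        have a3 : 1 ≤ K * (1 + T) ^ 4 := by nlinarith
        nlinarith
      nlinarith)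
    refine ⟨(y, t), ⟨⟨by simp only; rw [hyc]; exact hc, ht, ?_⟩, ?_⟩, hTh⟩
    · have h1 := hqM y hyc (by rw [hd]; exact ht)
      have hqn := H586.qq_nonneg hu hl y
      refine le_trans ?_ h1
      simp only
      gcongr
    · simp only [Set.mem_setOf_eq]
      rw [mem_eb_iff hR0]
      exact hball y (by rw [hd]; exact ht)
  -- integrals
  have hwE : Measurable fun c => ENNReal.ofReal (w c) := hwm.ennreal_ofReal
  have hrrm := measurable_rr u
  have hphm : Measurable (phi u) := (continuous_phi hu hl).measurable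
  have hm1 : Measurable (fun y : R3 => ENNReal.ofReal (w (phi u y) * rr u y)) :=
    ((hwm.comp hphm).mul hrrm).ennreal_ofReal
  have hm2 : Measurable (fun y : R3 => ENNReal.ofReal (w (phi u y) * (rr u y * qq u y))) :=
    ((hwm.comp hphm).mul (hrrm.mul (measurable_qq u))).ennreal_ofReal
  have i1 : volume (eb x0 (1 / 2)) * ∫⁻ c, ENNReal.ofReal (w c)
      ≤ ∫⁻ z in Theta u '' M', ENNReal.ofReal (w z.2) := by
    have e1 := setLIntegral_prod_mul (eb x0 (1 / 2)) {c : ℝ | |c| ≤ s3}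
      (f := fun _ => 1) measurable_const hwE
    simp only [one_mul, lintegral_const, Measure.restrict_apply_univ] at e1
    have e2 : ∫⁻ c in {c : ℝ | |c| ≤ s3}, ENNReal.ofReal (w c) = ∫⁻ c, ENNReal.ofReal (w c) := by
      have hms : MeasurableSet {c : ℝ | |c| ≤ s3} :=
        (isClosed_le continuous_abs continuous_const).measurableSet
      rw [← lintegral_indicator hms]
      refine lintegral_congr fun c => ?_
      by_cases hc : c ∈ {c : ℝ | |c| ≤ s3}
      · rw [Set.indicator_of_mem hc]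
      · rw [Set.indicator_of_notMem hc, hws c (by simp only [Set.mem_setOf_eq] at hc; linarith),
          ENNReal.ofReal_zero]
    rw [e2] at e1
    rw [← e1]
    exact lintegral_mono_set hsub
  have i2 : ∫⁻ z in Theta u '' M', ENNReal.ofReal (w z.2)
      ≤ ENNReal.ofReal (4 * T) * ∫⁻ y in eb x0 (T + 1), ENNReal.ofReal (w (phi u y) * rr u y) := by
    rw [lintegral_image_Theta (phi_c2 hu hl) hM'm hinj hrr hjj]
    calc ∫⁻ z in M', ENNReal.ofReal (rr u z.1 * jj u z.1 z.2) * ENNReal.ofReal (w (Theta u z).2)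
        ≤ ∫⁻ z in M', ENNReal.ofReal (2 * (w (phi u z.1) * rr u z.1)) * 1 := by
          refine setLIntegral_mono' hM'm fun z hz => ?_
          rw [mul_one, ← ENNReal.ofReal_mul (mul_nonneg (rr_nonneg u _) (hjj z hz))]
          apply ENNReal.ofReal_le_ofReal
          have h1 := (MM_jj h hu hl hz.1).2
          have h2 := hw0 (phi u z.1)
          have h3 := rr_nonneg u z.1
          have h4 := mul_nonneg h2 h3
          show rr u z.1 * jj u z.1 z.2 * w (phi u z.1) ≤ _
          nlinarith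
      _ ≤ ∫⁻ z in (eb x0 (T + 1)) ×ˢ (Set.Icc (-T) T),
            ENNReal.ofReal (2 * (w (phi u z.1) * rr u z.1)) * 1 := by
          refine lintegral_mono_set ?_
          rintro z ⟨h1, h2⟩
          exact ⟨h2, abs_le.mp h1.2.1⟩
      _ = _ := by
          rw [setLIntegral_prod_mul (f := fun y => ENNReal.ofReal (2 * (w (phi u y) * rr u y)))
            (g := fun _ => 1) _ _
            (((hwm.comp hphm).mul hrrm).const_mul 2).ennreal_ofReal measurable_const]
          simp only [lintegral_const, Measure.restrict_apply_univ, one_mul, Real.volume_Icc]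
          simp_rw [ENNReal.ofReal_mul (show (0:ℝ) ≤ 2 by norm_num)]
          rw [lintegral_const_mul _ hm1]
          rw [show (T - -T) = 2 * T by ring, show 4 * T = 2 * (2 * T) by ring,
            ENNReal.ofReal_mul (show (0:ℝ) ≤ 2 by norm_num),
            ENNReal.ofReal_mul (show (0:ℝ) ≤ 2 by norm_num),
            ENNReal.ofReal_mul (show (0:ℝ) ≤ 2 by norm_num)]
          ring
  -- comparison of q
  have hq0 := H586.qq_nonneg hu hl x0
  have i3 : ENNReal.ofReal (qq u x0) * ∫⁻ y in eb x0 (T + 1), ENNReal.ofReal (w (phi u y) * rr u y)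
      ≤ ENNReal.ofReal (cq s3 (T + 1)) * ∫⁻ y in eb x0 (T + 1),
          ENNReal.ofReal (w (phi u y) * (rr u y * qq u y)) := by
    rw [← lintegral_const_mul _ hm1, ← lintegral_const_mul _ hm2]
    refine setLIntegral_mono' (measurableSet_eb _ _) fun y hy => ?_
    rw [mem_eb_iff hR0] at hy
    rw [← ENNReal.ofReal_mul hq0, ← ENNReal.ofReal_mul (cq_pos _ _).le]
    apply ENNReal.ofReal_le_ofReal
    have h1 := qq_le_cq hu hl hx0 hy
    have h2 : 0 ≤ w (phi u y) * rr u y := mul_nonneg (hw0 _) (rr_nonneg u y)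
    calc qq u x0 * (w (phi u y) * rr u y) ≤ (cq s3 (T + 1) * qq u y) * (w (phi u y) * rr u y) :=
          mul_le_mul_of_nonneg_right h1 h2
      _ = _ := by ring
  -- assemble
  have hv := volume_eb' x0 (R := 1 / 2) (by norm_num)
  have hvp : 0 < SM.vb 3 * (1 / 2) ^ 3 := by have := SM.vb_pos 3; positivity
  rw [hv] at i1
  have j1 : ENNReal.ofReal (SM.vb 3 * (1 / 2) ^ 3) *
      (ENNReal.ofReal (qq u x0) * ∫⁻ c, ENNReal.ofReal (w c))
      ≤ ENNReal.ofReal (4 * T) * (ENNReal.ofReal (cq s3 (T + 1)) * ∫⁻ y in eb x0 (T + 1),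
          ENNReal.ofReal (w (phi u y) * (rr u y * qq u y))) := by
    calc _ = ENNReal.ofReal (qq u x0) *
          (ENNReal.ofReal (SM.vb 3 * (1 / 2) ^ 3) * ∫⁻ c, ENNReal.ofReal (w c)) := by ring
      _ ≤ ENNReal.ofReal (qq u x0) * (ENNReal.ofReal (4 * T) *
            ∫⁻ y in eb x0 (T + 1), ENNReal.ofReal (w (phi u y) * rr u y)) :=
          mul_le_mul_right (i1.trans i2) _
      _ = ENNReal.ofReal (4 * T) * (ENNReal.ofReal (qq u x0) *
            ∫⁻ y in eb x0 (T + 1), ENNReal.ofReal (w (phi u y) * rr u y)) := by ring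
      _ ≤ _ := by gcongr
  have j2 : ENNReal.ofReal (cm s3) = (ENNReal.ofReal (SM.vb 3 * (1 / 2) ^ 3))⁻¹ *
      (ENNReal.ofReal (4 * T) * ENNReal.ofReal (cq s3 (T + 1))) := by
    unfold cm
    rw [← hT, hR, ENNReal.ofReal_div_of_pos hvp, ENNReal.ofReal_mul (by positivity),
      ENNReal.div_eq_inv_mul]
  rw [j2, mul_assoc, mul_assoc]
  have hne : ENNReal.ofReal (SM.vb 3 * (1 / 2) ^ 3) ≠ 0 := by
    rw [Ne, ENNReal.ofReal_eq_zero]; linarith
  calc _ = (ENNReal.ofReal (SM.vb 3 * (1 / 2) ^ 3))⁻¹ * (ENNReal.ofReal (SM.vb 3 * (1 / 2) ^ 3) *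
      (ENNReal.ofReal (qq u x0) * ∫⁻ c, ENNReal.ofReal (w c))) := by
        rw [← mul_assoc, ENNReal.inv_mul_cancel hne ENNReal.ofReal_ne_top, one_mul]
    _ ≤ _ := by gcongr

end Vale.Agent.P134.H930
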