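import Vale.Agent.P134.H930.Mis
import Vale.Agent.P134.H458.PA
import Vale.Agent.P134.H16.PB1

set_option linter.all false

/-! **StMIS** (block LI-MIS / LI-TV of package R3), unconditional. -/

namespace Vale.Agent.P134.H930

theorem stMIS : LI.StMIS := mis hInj H458.stPA H16.PB1 H16.PB2

end Vale.Agent.P134.H930
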