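import Vale.Agent.P134.H930.Geo
import Vale.Agent.P134.H377.CovM
import Vale.Agent.P134.H586.Gw
import Vale.Agent.P134.H283.Harnack

set_option linter.all false

/-! Basic facts on `φ`, `f`, `g1`, the tubes; measurability. -/

namespace Vale.Agent.P134.H930

open Vale.Agent.P134 Vale.Agent.P134.SM Vale.Agent.P134.LI Vale.Agent.P134.H377 MeasureTheory Filter Topology
open scoped ENNReal

variable {u : R3 → ℝ} {x y z : R3} {t : ℝ}

lemma s2pos : (0:ℝ) < Real.sqrt 2 := by positivity
lemma s2sq : Real.sqrt 2 ^ 2 = 2 := Real.sq_sqrt (by norm_num)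
lemma s2mul : Real.sqrt 2 * Real.sqrt 2 = 2 := Real.mul_self_sqrt (by norm_num)
lemma one_lt_s2 : (1:ℝ) < Real.sqrt 2 := by
  rw [Real.lt_sqrt (by norm_num)]; norm_num
lemma s2_lt : Real.sqrt 2 < 3 / 2 := by
  rw [Real.sqrt_lt' (by norm_num)]; norm_num

/-! ### `g1` -/

lemma cosh_sq_bounds (s : ℝ) : Real.exp (2 * |s|) / 4 ≤ Real.cosh s ^ 2 ∧
    Real.cosh s ^ 2 ≤ Real.exp (2 * |s|) := by
  have h : Real.cosh s = Real.cosh |s| := (Real.cosh_abs s).symm
  rw [h]
  set r := |s| with hr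
  have hr0 : 0 ≤ r := abs_nonneg s
  have e1 : Real.exp (2 * r) = Real.exp r ^ 2 := by rw [← Real.exp_nat_mul]; norm_num
  have h1 : Real.exp r / 2 ≤ Real.cosh r := by
    rw [Real.cosh_eq]; have := Real.exp_pos (-r); linarith
  have h2 : Real.cosh r ≤ Real.exp r := by
    rw [Real.cosh_eq]
    have : Real.exp (-r) ≤ Real.exp r := Real.exp_le_exp.mpr (by linarith)
    linarith
  have h3 := Real.exp_pos r
  constructor
  · rw [e1]; nlinarith
  · rw [e1]; nlinarith [Real.cosh_pos r]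

lemma g1_eq (s : ℝ) : g1 s = 1 / (Real.sqrt 2 * Real.cosh (s / Real.sqrt 2) ^ 2) := by
  unfold g1 g0
  have h := Real.cosh_sq (s / Real.sqrt 2)
  have hc := Real.cosh_pos (s / Real.sqrt 2)
  have hs := s2pos
  rw [Real.tanh_eq_sinh_div_cosh]
  field_simp
  linarith

lemma two_abs_div (s : ℝ) : 2 * |s / Real.sqrt 2| = Real.sqrt 2 * |s| := by
  rw [abs_div, abs_of_pos s2pos]
  have := s2sq; have h := s2pos
  field_simp
  nlinarith [abs_nonneg s]

lemma g1_pos (s : ℝ) : 0 < g1 s := by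
  rw [g1_eq]; have := Real.cosh_pos (s / Real.sqrt 2); have := s2pos; positivity

lemma g1_lower (s : ℝ) : Real.exp (-(Real.sqrt 2 * |s|)) / Real.sqrt 2 ≤ g1 s := by
  rw [g1_eq]
  have h := (cosh_sq_bounds (s / Real.sqrt 2)).2
  rw [two_abs_div] at h
  have hc := Real.cosh_pos (s / Real.sqrt 2)
  have hs := s2pos
  rw [Real.exp_neg, div_eq_mul_inv, ← mul_inv, one_div]
  apply inv_anti₀ (by positivity)
  rw [mul_comm]
  gcongr

lemma g1_upper (s : ℝ) : g1 s ≤ 2 * Real.sqrt 2 * Real.exp (-(Real.sqrt 2 * |s|)) := by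
  rw [g1_eq]
  have h := (cosh_sq_bounds (s / Real.sqrt 2)).1
  rw [two_abs_div] at h
  have hc := Real.cosh_pos (s / Real.sqrt 2)
  have hs := s2pos
  rw [Real.exp_neg, div_le_iff₀ (by positivity)]
  have h0 := Real.exp_pos (Real.sqrt 2 * |s|)
  have e : 2 * Real.sqrt 2 * (Real.exp (Real.sqrt 2 * |s|))⁻¹
      * (Real.sqrt 2 * Real.cosh (s / Real.sqrt 2) ^ 2)
      = (Real.sqrt 2 * Real.sqrt 2) * 2 * (Real.cosh (s / Real.sqrt 2) ^ 2 /
        Real.exp (Real.sqrt 2 * |s|)) := by ring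
  rw [e, s2mul]
  have : 1 / 4 ≤ Real.cosh (s / Real.sqrt 2) ^ 2 / Real.exp (Real.sqrt 2 * |s|) := by
    rw [le_div_iff₀ h0]; linarith
  linarith

lemma g1_sq_upper (s : ℝ) : g1 s ^ 2 ≤ 8 * Real.exp (-(2 * Real.sqrt 2 * |s|)) := by
  have h := g1_upper s
  have h0 := (g1_pos s).le
  calc g1 s ^ 2 ≤ (2 * Real.sqrt 2 * Real.exp (-(Real.sqrt 2 * |s|))) ^ 2 := by gcongr
    _ = 4 * Real.sqrt 2 ^ 2 * Real.exp (-(Real.sqrt 2 * |s|)) ^ 2 := by ring
    _ = _ := by
      have e : Real.exp (-(Real.sqrt 2 * |s|)) ^ 2 = Real.exp (-(2 * Real.sqrt 2 * |s|)) := by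
        rw [sq, ← Real.exp_add]; congr 1; ring
      rw [s2sq, e]; ring

/-- shifted version. -/
lemma g1_sq_shift {s t c : ℝ} (h : |s| ≤ c) :
    g1 (s + t) ^ 2 ≤ 8 * Real.exp (2 * Real.sqrt 2 * c) * Real.exp (-(2 * Real.sqrt 2 * |t|)) := by
  refine (g1_sq_upper _).trans ?_
  have e : 8 * Real.exp (2 * Real.sqrt 2 * c) * Real.exp (-(2 * Real.sqrt 2 * |t|))
      = 8 * Real.exp (2 * Real.sqrt 2 * c + -(2 * Real.sqrt 2 * |t|)) := by
    rw [Real.exp_add]; ring
  rw [e]
  have : |t| - c ≤ |s + t| := by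
    have := abs_sub_abs_le_abs_sub t (-s)
    rw [abs_neg, sub_neg_eq_add, add_comm t s] at this
    linarith
  have hs := s2pos
  have : Real.exp (-(2 * Real.sqrt 2 * |s + t|))
      ≤ Real.exp (2 * Real.sqrt 2 * c + -(2 * Real.sqrt 2 * |t|)) := by
    apply Real.exp_le_exp.mpr; nlinarith
  linarith

lemma continuous_g1 : Continuous g1 := by
  have : g1 = fun s => 1 / (Real.sqrt 2 * Real.cosh (s / Real.sqrt 2) ^ 2) := by
    funext s; exact g1_eq s
  rw [this]
  have h : ∀ s : ℝ, Real.sqrt 2 * Real.cosh (s / Real.sqrt 2) ^ 2 ≠ 0 := fun s => by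
    have := Real.cosh_pos (s / Real.sqrt 2); have := s2pos; positivity
  refine Continuous.div continuous_const ?_ h
  exact continuous_const.mul ((Real.continuous_cosh.comp (by fun_prop)).pow 2)

/-! ### `φ`, `f` -/

lemma g0_phi (h1 : ∀ x, |u x| < 1) (x : R3) : g0 (phi u x) = u x := by
  have h := abs_lt.mp (h1 x)
  have ha : 0 < 1 + u x := by linarith [h.1]
  have hb : 0 < 1 - u x := by linarith [h.2]
  unfold g0 phi
  have e : Real.sqrt 2 / 2 * (Real.log (1 + u x) - Real.log (1 - u x)) / Real.sqrt 2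
      = (Real.log (1 + u x) - Real.log (1 - u x)) / 2 := by
    have := s2pos; field_simp
  rw [e, Real.tanh_eq_sinh_div_cosh, Real.sinh_eq, Real.cosh_eq]
  set a := Real.log (1 + u x) with hA
  set b := Real.log (1 - u x) with hB
  have ea : Real.exp a = 1 + u x := Real.exp_log ha
  have eb' : Real.exp b = 1 - u x := Real.exp_log hb
  have p1 := Real.exp_pos ((a - b) / 2)
  have p2 := Real.exp_pos (-((a - b) / 2))
  have k1 : Real.exp ((a - b) / 2) * Real.exp (-((a - b) / 2)) = 1 := by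
    rw [← Real.exp_add]; simp
  have k2 : Real.exp ((a - b) / 2) * Real.exp ((a - b) / 2) * Real.exp b = Real.exp a := by
    rw [← Real.exp_add, ← Real.exp_add]; congr 1; ring
  have k3 : Real.exp ((a - b) / 2) ^ 2 * (1 - u x) = 1 + u x := by
    rw [← ea, ← eb', ← k2]; ring
  have hne : Real.exp ((a - b) / 2) + Real.exp (-((a - b) / 2)) ≠ 0 := by positivity
  rw [div_div_div_cancel_right₀ (by norm_num), div_eq_iff hne]
  set p := Real.exp ((a - b) / 2) with hp
  set q := Real.exp (-((a - b) / 2)) with hq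
  have : p * (p - q - u x * (p + q)) = 0 := by
    have : p * (p - q - u x * (p + q)) = p ^ 2 * (1 - u x) - (p * q) * (1 + u x) := by ring
    rw [this, k1, k3]; ring
  rcases mul_eq_zero.mp this with h | h
  · exact absurd h p1.ne'
  · linarith

lemma ff_eq_g1 (h1 : ∀ x, |u x| < 1) (x : R3) : ff u x = g1 (phi u x) := by
  unfold g1; rw [g0_phi h1]; rfl

lemma ff_nonneg (h1 : ∀ x, |u x| < 1) (x : R3) : 0 ≤ ff u x := by
  rw [ff_eq_g1 h1]; exact (g1_pos _).le

lemma ff_sq_le (hu : Sol u) (x : R3) : ff u x ^ 2 ≤ 1 / 2 := by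
  unfold ff
  rw [div_pow, s2sq]
  have h := abs_le.mp (hu.bd x)
  have h2 : 0 ≤ 1 - u x ^ 2 := by nlinarith [h.1, h.2]
  have h3 : 1 - u x ^ 2 ≤ 1 := by nlinarith
  nlinarith

lemma rr_sq (u : R3 → ℝ) (x : R3) : rr u x ^ 2 = 1 - qq u x := by
  unfold rr qq; rw [wn_sq]; ring

lemma rr_nonneg (u : R3 → ℝ) (x : R3) : 0 ≤ rr u x := wn_nonneg _ _

lemma rr_le_one (hu : Sol u) (h1 : ∀ x, |u x| < 1) (x : R3) : rr u x ≤ 1 := by
  have h := rr_sq u x
  have h2 := H586.qq_nonneg hu h1 x
  have h3 := rr_nonneg u x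
  nlinarith

lemma rr_half {x : R3} (h : qq u x ≤ 1 / 2) : 1 / 2 ≤ rr u x := by
  have h' := rr_sq u x
  have h3 := rr_nonneg u x
  nlinarith

lemma ed_eno (x y : R3) : ed x y = eno (x - y) := rfl

lemma xt_sub (u : R3 → ℝ) (x : R3) (t : ℝ) : xt u x t - x = t • nn u x := by
  funext i; simp [xt]

lemma eno_nn (h : 0 < rr u x) : eno (nn u x) = 1 := by
  have h2 := sum_nu_sq (gs_pos_of_rr h)
  unfold eno esq nn
  rw [h2, Real.sqrt_one]

lemma eno_nn_le (u : R3 → ℝ) (x : R3) : eno (nn u x) ≤ 1 := by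
  rcases (rr_nonneg u x).eq_or_lt with h | h
  · have h0 : gs (phi u) x = 0 := by
      have h3 : rr u x ^ 2 = gs (phi u) x := wn_sq _ _
      rw [← h3, ← h]; norm_num
    have h4 : nn u x = 0 := by
      funext i
      unfold nn nu
      have : wn (phi u) x = 0 := by
        have : wn (phi u) x = rr u x := rfl
        rw [this, ← h]
      simp [this]
    rw [h4, eno_zero]; norm_num
  · exact (eno_nn h).le

lemma eno_xt_le (u : R3 → ℝ) (x : R3) (t : ℝ) : eno (xt u x t - x) ≤ |t| := by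
  rw [xt_sub, eno_smul]
  have := eno_nn_le u x
  nlinarith [abs_nonneg t]

/-! ### Measurability -/

lemma measurable_pd (f : R3 → ℝ) (i : Fin 3) : Measurable (pd i f) :=
  measurable_fderiv_apply_const ℝ f _

lemma measurable_wn (f : R3 → ℝ) : Measurable (wn f) := by
  unfold wn gs
  exact (Finset.measurable_sum _ fun i _ => (measurable_pd f i).pow_const 2).sqrt

lemma measurable_nu' (f : R3 → ℝ) (i : Fin 3) : Measurable (nu f i) := by
  unfold nu
  exact (measurable_pd f i).div (measurable_wn f)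

lemma measurable_rr (u : R3 → ℝ) : Measurable (rr u) := measurable_wn _

lemma measurable_nn (u : R3 → ℝ) : Measurable (nn u) :=
  measurable_pi_lambda _ fun i => measurable_nu' _ i

lemma measurable_hh (u : R3 → ℝ) : Measurable (hh u) := by
  unfold hh mc
  exact Finset.measurable_sum _ fun i _ => measurable_pd _ i

lemma measurable_aa (u : R3 → ℝ) (i j : Fin 3) : Measurable (aa u i j) := by
  unfold aa
  exact (measurable_pd _ j).sub ((Finset.measurable_sum _ fun k _ =>
    (measurable_pd _ k).mul (measurable_nu' _ k)).mul (measurable_nu' _ j))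

lemma measurable_kk (u : R3 → ℝ) : Measurable (kk u) := by
  unfold kk a2
  exact (((measurable_hh u).pow_const 2).sub (Finset.measurable_sum _ fun i _ =>
    Finset.measurable_sum _ fun j _ => (measurable_aa u i j).pow_const 2)).div_const 2

lemma measurable_jj (u : R3 → ℝ) : Measurable (fun z : R3 × ℝ => jj u z.1 z.2) := by
  unfold jj
  have h1 : Measurable (fun z : R3 × ℝ => hh u z.1) := (measurable_hh u).comp measurable_fst
  have h2 : Measurable (fun z : R3 × ℝ => kk u z.1) := (measurable_kk u).comp measurable_fst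
  exact (measurable_const.add (measurable_snd.mul h1)).add ((measurable_snd.pow_const 2).mul h2)

lemma measurable_xt (u : R3 → ℝ) : Measurable (fun z : R3 × ℝ => xt u z.1 z.2) := by
  have h : (fun z : R3 × ℝ => xt u z.1 z.2) = fun z => z.1 + z.2 • nn u z.1 := by
    funext z i; simp [xt]
  rw [h]
  exact measurable_fst.add (measurable_snd.smul ((measurable_nn u).comp measurable_fst))

lemma measurable_qq (u : R3 → ℝ) : Measurable (qq u) := by
  unfold qq gs
  exact measurable_const.sub (Finset.measurable_sum _ fun i _ => (measurable_pd _ i).pow_const 2)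

lemma continuous_phi (hu : Sol u) (h1 : ∀ x, |u x| < 1) : Continuous (phi u) :=
  (phi_c2 hu h1).continuous

lemma continuous_ff (hu : Sol u) : Continuous (ff u) := by
  unfold ff; have := hu.c2.continuous; fun_prop

lemma measurable_dep (ε κ : ℝ) (u : R3 → ℝ) : Measurable (dep ε κ u) := by
  unfold dep
  have := measurable_qq u
  fun_prop

lemma measurable_prf (ε κ : ℝ) (hu : Sol u) (h1 : ∀ x, |u x| < 1) :
    Measurable (fun z : R3 × ℝ => prf ε κ u z.1 z.2) := by
  unfold prf zt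
  have h2 : Measurable (fun z : R3 × ℝ => dep ε κ u z.1) :=
    (measurable_dep ε κ u).comp measurable_fst
  have h3 : Measurable (fun z : R3 × ℝ => g1 (phi u z.1 + z.2)) :=
    (continuous_g1.comp (((continuous_phi hu h1).comp continuous_fst).add continuous_snd)).measurable
  have h4 : Measurable (fun z : R3 × ℝ => Real.smoothTransition (dep ε κ u z.1 + 1 - |z.2|)) :=
    Real.smoothTransition.continuous.measurable.comp
      ((h2.add_const 1).sub (measurable_snd.abs))
  exact h3.mul h4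

end Vale.Agent.P134.H930
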