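import Vale.Agent.P134.H930.PC

set_option linter.all false

/-! Piece C: the integral over the complement of the image. -/

namespace Vale.Agent.P134.H930

open Vale.Agent.P134 Vale.Agent.P134.SM Vale.Agent.P134.LI Vale.Agent.P134.H377 MeasureTheory Filter Topology
open scoped ENNReal

variable {u : R3 → ℝ} {x y z : R3} {t : ℝ} {s3 K L ε δ W κ lam : ℝ} {B : Set R3} {w : ℝ → ℝ}
  {om v : R3 → ℝ}

lemma continuous_eno : Continuous (eno : R3 → ℝ) := by
  have : Continuous (esq : R3 → ℝ) := by unfold esq; fun_prop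
  exact Real.continuous_sqrt.comp this

lemma isClosed_Far (B : Set R3) (r : ℝ) : IsClosed {x | Far B r x} := by
  have : {x | Far B r x} = ⋂ b ∈ B, {x | r ≤ eno (x - b)} := by
    ext x; simp [Far]
  rw [this]
  exact isClosed_biInter fun b _ =>
    isClosed_le continuous_const (continuous_eno.comp (continuous_id.sub continuous_const))

lemma measurableSet_Far (B : Set R3) (r : ℝ) : MeasurableSet {x | Far B r x} :=
  (isClosed_Far B r).measurableSet

lemma measurableSet_ring (B : Set R3) (r s : ℝ) :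
    MeasurableSet {x | Far B r x ∧ ¬ Far B s x} :=
  (measurableSet_Far B r).inter (measurableSet_Far B s).compl

lemma measurableSet_ball_rel (R : ℝ) : MeasurableSet {p : R3 × R3 | p.2 ∈ eb p.1 R} := by
  have : {p : R3 × R3 | p.2 ∈ eb p.1 R} = {p : R3 × R3 | dsq p.1 p.2 ≤ R ^ 2} := rfl
  rw [this]
  apply IsClosed.measurableSet
  apply isClosed_le _ continuous_const
  unfold dsq
  fun_prop

lemma ball_int_eq (F : R3 → ℝ≥0∞) (R : ℝ) (z : R3) :
    ∫⁻ y in eb z R, F y
      = ∫⁻ y, Set.indicator {p : R3 × R3 | p.2 ∈ eb p.1 R} (fun p => F p.2) (z, y) := by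
  rw [← lintegral_indicator (measurableSet_eb z R)]
  rfl

lemma measurable_ball_int {F : R3 → ℝ≥0∞} (hF : Measurable F) (R : ℝ) :
    Measurable fun z : R3 => ∫⁻ y in eb z R, F y := by
  simp_rw [ball_int_eq]
  exact ((hF.comp measurable_snd).indicator (measurableSet_ball_rel R)).lintegral_prod_right'

/-- Tonelli on balls. -/
lemma swap_ball {F G : R3 → ℝ≥0∞} (hF : Measurable F) (hG : Measurable G) (R : ℝ) :
    ∫⁻ z, G z * ∫⁻ y in eb z R, F y = ∫⁻ y, F y * ∫⁻ z in eb y R, G z := by
  have hm : Measurable (fun p : R3 × R3 =>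
      Set.indicator {p : R3 × R3 | p.2 ∈ eb p.1 R} (fun p => G p.1 * F p.2) p) :=
    ((hG.comp measurable_fst).mul (hF.comp measurable_snd)).indicator (measurableSet_ball_rel R)
  have e1 : ∀ z, G z * ∫⁻ y in eb z R, F y
      = ∫⁻ y, Set.indicator {p : R3 × R3 | p.2 ∈ eb p.1 R} (fun p => G p.1 * F p.2) (z, y) := by
    intro z
    rw [← lintegral_const_mul _ hF, ← lintegral_indicator (measurableSet_eb z R)]
    rfl
  have e2 : ∀ y, F y * ∫⁻ z in eb y R, G z
      = ∫⁻ z, Set.indicator {p : R3 × R3 | p.2 ∈ eb p.1 R} (fun p => G p.1 * F p.2) (z, y) := by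
    intro y
    rw [← lintegral_const_mul _ hG, ← lintegral_indicator (measurableSet_eb y R)]
    refine lintegral_congr fun z => ?_
    by_cases h : z ∈ eb y R
    · have h' : ((z, y) : R3 × R3) ∈ {p : R3 × R3 | p.2 ∈ eb p.1 R} := mem_eb_comm.mp h
      rw [Set.indicator_of_mem h, Set.indicator_of_mem h', mul_comm]
    · have h' : ((z, y) : R3 × R3) ∉ {p : R3 × R3 | p.2 ∈ eb p.1 R} := fun h2 =>
        h (mem_eb_comm.mpr h2)
      rw [Set.indicator_of_notMem h, Set.indicator_of_notMem h']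
  simp_rw [e1, e2]
  exact lintegral_lintegral_swap hm.aemeasurable

/-- `∫_Z G² m ≤ C ∫ q w ... G²`. -/
lemma ring_swap (d : Dat s3 δ W u B w om v) (n : Num s3 K ε δ W L κ lam) :
    ∫⁻ z in {x | Far B W x ∧ ¬ Far B (2 * W) x}, GE lam z *
        ∫⁻ y in eb z (L + (4 * s3 + 2)), ENNReal.ofReal (w (phi u y) * (rr u y * qq u y))
      ≤ ENNReal.ofReal (2 * (SM.vb 3 * (L + (4 * s3 + 2)) ^ 3)) * QE lam W u B w := by
  have hs := n.s3pos
  have hL1 := n.L1
  have hlam := n.l0
  have hLW := n.LW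
  set R := L + (4 * s3 + 2) with hR
  have hR0 : 0 ≤ R := by positivity
  have hZ := measurableSet_ring B W (2 * W)
  have hZ' := measurableSet_ring B (W / 2) (3 * W)
  have hFm : Measurable (fun y : R3 => ENNReal.ofReal (w (phi u y) * (rr u y * qq u y))) :=
    ((d.hw.measurable.comp (continuous_phi d.hu d.hl).measurable).mul
      ((measurable_rr u).mul (measurable_qq u))).ennreal_ofReal
  have hGm : Measurable (Set.indicator {x | Far B W x ∧ ¬ Far B (2 * W) x} (GE lam)) :=
    (measurable_GE lam).indicator hZ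
  rw [← lintegral_indicator hZ]
  have e1 : ∀ z, Set.indicator {x | Far B W x ∧ ¬ Far B (2 * W) x} (fun z => GE lam z *
        ∫⁻ y in eb z R, ENNReal.ofReal (w (phi u y) * (rr u y * qq u y))) z
      = Set.indicator {x | Far B W x ∧ ¬ Far B (2 * W) x} (GE lam) z *
        ∫⁻ y in eb z R, ENNReal.ofReal (w (phi u y) * (rr u y * qq u y)) := by
    intro z
    by_cases h : z ∈ {x | Far B W x ∧ ¬ Far B (2 * W) x}
    · rw [Set.indicator_of_mem h, Set.indicator_of_mem h]
    · rw [Set.indicator_of_notMem h, Set.indicator_of_notMem h, zero_mul]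
  simp_rw [e1]
  rw [swap_ball hFm hGm, QE, ← lintegral_const_mul _ (by
    have h1 : Measurable (fun x : R3 => w (phi u x)) :=
      d.hw.measurable.comp (continuous_phi d.hu d.hl).measurable
    have h2 := measurable_rr u
    have h3 := measurable_qq u
    have h4 := (continuous_Gw lam).measurable
    exact (((h1.mul h2).mul h3).mul (h4.pow_const 2)).ennreal_ofReal),
    ← lintegral_indicator hZ']
  refine lintegral_mono fun y => ?_
  simp only
  rcases eq_or_ne (w (phi u y)) 0 with hw | hw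
  · rw [hw]; simp
  by_cases hy : y ∈ {x | Far B (W / 2) x ∧ ¬ Far B (3 * W) x}
  · rw [Set.indicator_of_mem hy]
    have b1 : ∫⁻ z in eb y R, Set.indicator {x | Far B W x ∧ ¬ Far B (2 * W) x} (GE lam) z
        ≤ ENNReal.ofReal (Real.exp (2 * lam * R) * (SM.vb 3 * R ^ 3)) * GE lam y := by
      refine le_trans ?_ (lintegral_GE_eb hlam.le y hR0)
      exact lintegral_mono fun z => Set.indicator_le_self _ _ _
    have hE : Real.exp (2 * lam * R) ≤ 2 := by
      have h1 : 2 * lam * R ≤ 1 / 4 := by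
        have := n.l1
        nlinarith
      calc Real.exp (2 * lam * R) ≤ Real.exp (1 / 4) := Real.exp_le_exp.mpr h1
        _ ≤ 2 := by
          have h2 : Real.exp (1 / 4) ^ 4 = Real.exp 1 := by
            rw [← Real.exp_nat_mul]; norm_num
          have h3 := Real.exp_one_lt_d9
          have h4 := Real.exp_pos (1 / 4)
          by_contra hcon
          push Not at hcon
          have : (2:ℝ) ^ 4 < Real.exp (1 / 4) ^ 4 := by gcongr
          rw [h2] at this
          norm_num at this
          linarith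
    have hvb : 0 ≤ SM.vb 3 * R ^ 3 := by have := SM.vb_pos 3; positivity
    have hr := rr_nonneg u y
    have hq := H586.qq_nonneg d.hu d.hl y
    have hw0 := (d.hw0 (phi u y)).1
    calc ENNReal.ofReal (w (phi u y) * (rr u y * qq u y)) *
        ∫⁻ z in eb y R, Set.indicator {x | Far B W x ∧ ¬ Far B (2 * W) x} (GE lam) z
        ≤ ENNReal.ofReal (w (phi u y) * (rr u y * qq u y)) *
          (ENNReal.ofReal (2 * (SM.vb 3 * R ^ 3)) * GE lam y) := by
          refine mul_le_mul_right (b1.trans ?_) _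
          refine mul_le_mul_left (ENNReal.ofReal_le_ofReal ?_) _
          exact mul_le_mul_of_nonneg_right hE hvb
      _ = _ := by
          unfold GE
          rw [← ENNReal.ofReal_mul (by positivity), ← ENNReal.ofReal_mul (by positivity),
            ← ENNReal.ofReal_mul (by positivity)]
          congr 1
          ring
  · have hzero : ∀ z ∈ eb y R,
        Set.indicator {x | Far B W x ∧ ¬ Far B (2 * W) x} (GE lam) z = 0 := by
      intro z hz
      apply Set.indicator_of_notMem
      rintro ⟨h1, h2⟩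
      rw [mem_eb_iff hR0] at hz
      apply hy
      refine ⟨Far.mono (Far.sub h1 hz) (by linarith), ?_⟩
      intro h3
      apply h2
      exact Far.mono (Far.sub (s := R) h3 (by rw [eno_sub_comm]; exact hz)) (by linarith)
    rw [setLIntegral_congr_fun (measurableSet_eb y R) hzero]
    simp

/-- **Piece C**. -/
theorem piece_C (s3 K : ℝ) (hC : Cst s3 K) : ∃ C : ℝ, 0 < C ∧
    ∀ (ε δ W L κ lam : ℝ), Num s3 K ε δ W L κ lam →
    ∀ (u : R3 → ℝ) (B : Set R3) (w : ℝ → ℝ) (om v : R3 → ℝ), Dat s3 δ W u B w om v →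
    ∫⁻ p in (Theta u '' MM s3 K L u)ᶜ, ENNReal.ofReal |h1 lam u w v p|
      ≤ ENNReal.ofReal (C * (1 + L) ^ 7 * Real.exp (L / 480)) * QE lam W u B w
        + ENNReal.ofReal (C * Real.exp (-(2 * L)))
          * ∫⁻ x in {x | ¬ Far B (3 * W) x}, GE lam x := by
  obtain ⟨C, hC0, hPC⟩ := stPC s3 K hC
  have hs := hC.s3pos
  have hvb := SM.vb_pos 3
  refine ⟨C * (2 * SM.vb 3 * (4 * s3 + 3) ^ 3) + 2 * s3 * C, by positivity, ?_⟩
  intro ε δ W L κ lam n u B w om v d
  have hL1 := n.L1
  have hlam := n.l0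
  have hLW := n.LW
  have hW : 0 < W := by linarith
  set R := L + (4 * s3 + 2) with hR
  have hR0 : 0 ≤ R := by positivity
  have hZ := measurableSet_ring B W (2 * W)
  have hIm : MeasurableSet (Theta u '' MM s3 K L u) :=
    measurableSet_image_Theta (phi_c2 d.hu d.hl) (measurableSet_MM d.hu d.hl)
      (MM_inj hC d.hu d.hl) (fun z hz => by have := MM_rr hC d.hu d.hl hz; linarith)
  have hFm : Measurable (fun y : R3 => ENNReal.ofReal (w (phi u y) * (rr u y * qq u y))) :=
    ((d.hw.measurable.comp (continuous_phi d.hu d.hl).measurable).mul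
      ((measurable_rr u).mul (measurable_qq u))).ennreal_ofReal
  have hwE : Measurable fun s => ENNReal.ofReal (w s) := d.hw.measurable.ennreal_ofReal
  set m : R3 → ℝ≥0∞ := fun z =>
    ∫⁻ y in eb z R, ENNReal.ofReal (w (phi u y) * (rr u y * qq u y)) with hm
  have hmm : Measurable m := measurable_ball_int hFm R
  set Wt : ℝ≥0∞ := ∫⁻ s, ENNReal.ofReal (w s) with hWt
  set C1 : ℝ := C * (1 + L) ^ 4 * Real.exp (L / 480) with hC1
  -- total mass of `w`
  have hWt2 : Wt ≤ ENNReal.ofReal (2 * s3) := by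
    have e1 : ∀ s, ENNReal.ofReal (w s) ≤ Set.indicator (Set.Icc (-s3) s3) (fun _ => 1) s := by
      intro s
      by_cases h : s ∈ Set.Icc (-s3) s3
      · rw [Set.indicator_of_mem h]
        exact ENNReal.ofReal_le_one.mpr (d.hw0 s).2
      · rw [Set.indicator_of_notMem h]
        have : s3 ≤ |s| := by
          by_contra hcon
          push Not at hcon
          have := abs_lt.mp hcon
          exact h ⟨this.1.le, this.2.le⟩
        rw [d.hws s this]; simp
    calc Wt ≤ ∫⁻ s, Set.indicator (Set.Icc (-s3) s3) (fun _ => 1) s := lintegral_mono e1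
      _ = ENNReal.ofReal (2 * s3) := by
          rw [lintegral_indicator measurableSet_Icc, setLIntegral_const, Real.volume_Icc, one_mul]
          congr 1; ring
  have hWtop : Wt ≠ ⊤ := ne_top_of_le_ne_top ENNReal.ofReal_ne_top hWt2
  -- pointwise bound
  set Φ : R3 → ℝ≥0∞ := Set.indicator {x | Far B W x ∧ ¬ Far B (2 * W) x} (fun z =>
    GE lam z * ENNReal.ofReal (C * Real.exp (-(2 * L))) + GE lam z * (ENNReal.ofReal C1 * m z / Wt))
    with hΦ
  have hΦm : Measurable Φ := by
    refine Measurable.indicator ?_ hZ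
    have := measurable_GE lam
    fun_prop
  have hpt : ∀ p ∈ (Theta u '' MM s3 K L u)ᶜ, ENNReal.ofReal |h1 lam u w v p|
      ≤ Φ p.1 * ENNReal.ofReal (w p.2) := by
    rintro ⟨z, c⟩ hp
    simp only
    rcases eq_or_ne (w c) 0 with hw | hw
    · have : h1 lam u w v (z, c) = 0 := by unfold h1; simp [hw]
      rw [this]; simp
    rcases eq_or_ne (v z) 0 with hv | hv
    · have : h1 lam u w v (z, c) = 0 := by unfold h1; simp [hv]
      rw [this]; simp
    have hzZ : z ∈ {x | Far B W x ∧ ¬ Far B (2 * W) x} := d.hv2 z hv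
    have hw0 := (d.hw0 c).1
    have hW0 : Wt ≠ 0 := by
      intro h0
      rw [hWt, lintegral_eq_zero_iff hwE] at h0
      have hc0 : Continuous fun s => ENNReal.ofReal (w s) :=
        ENNReal.continuous_ofReal.comp d.hw
      have := (Continuous.ae_eq_iff_eq volume hc0 continuous_const).mp h0
      have h1 := congrFun this c
      have h2 := ENNReal.ofReal_eq_zero.mp h1
      exact hw (le_antisymm h2 hw0)
    have e1 : ENNReal.ofReal |h1 lam u w v (z, c)|
        ≤ GE lam z * ENNReal.ofReal (ff u z ^ 2) * ENNReal.ofReal (w c) := by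
      unfold GE
      rw [← ENNReal.ofReal_mul (by positivity), ← ENNReal.ofReal_mul (by positivity)]
      apply ENNReal.ofReal_le_ofReal
      unfold h1
      rw [abs_mul, abs_mul, abs_mul, abs_of_nonneg hw0, abs_of_nonneg (sq_nonneg (Gw lam z)),
        abs_of_nonneg (sq_nonneg (ff u z))]
      have h2 := d.hv1 z
      have h3 : 0 ≤ w c * (Gw lam z ^ 2 * ff u z ^ 2) := by positivity
      nlinarith
    refine e1.trans ?_
    refine mul_le_mul_left ?_ _
    rw [hΦ, Set.indicator_of_mem hzZ]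
    rcases hPC ε δ W L κ lam n u B w om v d z c hv hw hp with h2 | h2
    · refine le_trans ?_ le_self_add
      exact mul_le_mul_right (ENNReal.ofReal_le_ofReal h2) _
    · refine le_trans ?_ le_add_self
      refine mul_le_mul_right ?_ _
      rw [ENNReal.le_div_iff_mul_le (Or.inl hW0) (Or.inl hWtop)]
      exact h2
  -- integrate
  have i1 : ∫⁻ p in (Theta u '' MM s3 K L u)ᶜ, ENNReal.ofReal |h1 lam u w v p|
      ≤ (∫⁻ z, Φ z) * Wt := by
    calc _ ≤ ∫⁻ p in (Theta u '' MM s3 K L u)ᶜ, Φ p.1 * ENNReal.ofReal (w p.2) :=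
          setLIntegral_mono' hIm.compl hpt
      _ ≤ ∫⁻ p : R3 × ℝ, Φ p.1 * ENNReal.ofReal (w p.2) := setLIntegral_le_lintegral _ _
      _ = _ := by
          rw [Measure.volume_eq_prod, lintegral_prod_mul hΦm.aemeasurable hwE.aemeasurable]
  have hGEm := measurable_GE lam
  have i2 : ∫⁻ z, Φ z = (∫⁻ z in {x | Far B W x ∧ ¬ Far B (2 * W) x},
        GE lam z * ENNReal.ofReal (C * Real.exp (-(2 * L))))
      + ∫⁻ z in {x | Far B W x ∧ ¬ Far B (2 * W) x}, GE lam z * (ENNReal.ofReal C1 * m z / Wt) := by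
    rw [hΦ, lintegral_indicator hZ, lintegral_add_left (by fun_prop)]
  have i3 : (∫⁻ z in {x | Far B W x ∧ ¬ Far B (2 * W) x},
        GE lam z * ENNReal.ofReal (C * Real.exp (-(2 * L)))) * Wt
      ≤ ENNReal.ofReal (2 * s3 * C * Real.exp (-(2 * L))) * ∫⁻ x in {x | ¬ Far B (3 * W) x}, GE lam x := by
    rw [lintegral_mul_const _ hGEm]
    have e2 : ∫⁻ z in {x | Far B W x ∧ ¬ Far B (2 * W) x}, GE lam z
        ≤ ∫⁻ x in {x | ¬ Far B (3 * W) x}, GE lam x := by
      refine lintegral_mono_set ?_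
      rintro x ⟨-, h⟩ h3
      exact h (Far.mono h3 (by linarith))
    calc _ ≤ (∫⁻ x in {x | ¬ Far B (3 * W) x}, GE lam x) *
          ENNReal.ofReal (C * Real.exp (-(2 * L))) * ENNReal.ofReal (2 * s3) := by gcongr
      _ = _ := by
          rw [show 2 * s3 * C * Real.exp (-(2 * L)) = (C * Real.exp (-(2 * L))) * (2 * s3) by ring,
            ENNReal.ofReal_mul (show 0 ≤ C * Real.exp (-(2 * L)) by positivity)]
          ring
  have i4 : (∫⁻ z in {x | Far B W x ∧ ¬ Far B (2 * W) x},
        GE lam z * (ENNReal.ofReal C1 * m z / Wt)) * Wt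
      ≤ ENNReal.ofReal (C1 * (2 * (SM.vb 3 * R ^ 3))) * QE lam W u B w := by
    have e3 : ∀ z, GE lam z * (ENNReal.ofReal C1 * m z / Wt)
        = (ENNReal.ofReal C1 / Wt) * (GE lam z * m z) := by
      intro z; rw [div_eq_mul_inv, div_eq_mul_inv]; ring
    simp_rw [e3]
    have hGm2 : Measurable fun z => GE lam z * m z := hGEm.mul hmm
    rw [lintegral_const_mul _ hGm2]
    have e4 := ring_swap d n
    calc _ = (ENNReal.ofReal C1 / Wt * Wt) *
          ∫⁻ z in {x | Far B W x ∧ ¬ Far B (2 * W) x}, GE lam z * m z := by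
          ring
      _ ≤ ENNReal.ofReal C1 * (ENNReal.ofReal (2 * (SM.vb 3 * R ^ 3)) * QE lam W u B w) := by
          refine mul_le_mul' ?_ e4
          rw [div_eq_mul_inv, mul_assoc]
          calc _ ≤ ENNReal.ofReal C1 * 1 := by gcongr; exact ENNReal.inv_mul_le_one _
            _ = _ := mul_one _
      _ = _ := by
          have hC1n : 0 ≤ C1 := by positivity
          rw [ENNReal.ofReal_mul hC1n]; ring
  refine i1.trans ?_
  rw [i2, add_mul, add_comm]
  refine add_le_add (i4.trans ?_) (i3.trans ?_)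
  · refine mul_le_mul_left (ENNReal.ofReal_le_ofReal ?_) _
    have hRR : R ^ 3 ≤ (4 * s3 + 3) ^ 3 * (1 + L) ^ 3 := by
      rw [← mul_pow]
      have : R ≤ (4 * s3 + 3) * (1 + L) := by rw [hR]; nlinarith
      gcongr
    calc C1 * (2 * (SM.vb 3 * R ^ 3)) ≤ C1 * (2 * (SM.vb 3 * ((4 * s3 + 3) ^ 3 * (1 + L) ^ 3))) := by
          gcongr
      _ = C * (2 * SM.vb 3 * (4 * s3 + 3) ^ 3) * (1 + L) ^ 7 * Real.exp (L / 480) := by
          rw [hC1]; ring
      _ ≤ _ := by
          have : 0 ≤ 2 * s3 * C * (1 + L) ^ 7 * Real.exp (L / 480) := by positivity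
          nlinarith
  · refine mul_le_mul_left (ENNReal.ofReal_le_ofReal ?_) _
    have : 0 ≤ C * (2 * SM.vb 3 * (4 * s3 + 3) ^ 3) * Real.exp (-(2 * L)) := by positivity
    nlinarith

end Vale.Agent.P134.H930
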