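import Vale.Agent.P134.H930.Basic
import Vale.Agent.P134.H283.Tang

set_option linter.all false

/-! Curvature bounds `|H|, |K| ≤ C q` where `q ≤ 1/2`. -/

namespace Vale.Agent.P134.H930

open Vale.Agent.P134 Vale.Agent.P134.SM Vale.Agent.P134.LI Vale.Agent.P134.H377 MeasureTheory Filter Topology
open scoped ENNReal

variable {u : R3 → ℝ} {x y z : R3} {t : ℝ}

lemma ff_pos (h1 : ∀ x, |u x| < 1) (x : R3) : 0 < ff u x := by
  rw [ff_eq_g1 h1]; exact g1_pos _

lemma pd_u (hu : Sol u) (h1 : ∀ x, |u x| < 1) (i : Fin 3) (x : R3) :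
    pd i u x = ff u x * pd i (phi u) x := by
  rw [H586.pd_phi hu h1 i x]
  have := ff_pos h1 x
  field_simp

lemma wn_u (hu : Sol u) (h1 : ∀ x, |u x| < 1) (x : R3) : wn u x = ff u x * rr u x := by
  have h := ff_pos h1 x
  unfold rr wn
  have e : gs u x = ff u x ^ 2 * gs (phi u) x := by
    unfold gs
    rw [Finset.mul_sum]
    refine Finset.sum_congr rfl fun i _ => ?_
    rw [pd_u hu h1]; ring
  rw [e, Real.sqrt_mul (sq_nonneg _), Real.sqrt_sq h.le]

lemma nu_phi (hu : Sol u) (h1 : ∀ x, |u x| < 1) (i : Fin 3) : nu (phi u) i = nu u i := by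
  funext x
  have h := ff_pos h1 x
  have e : rr u x = wn (phi u) x := rfl
  unfold nu
  rw [wn_u hu h1, pd_u hu h1, e, mul_div_mul_left _ _ h.ne']

lemma sum_sq_sub3 (a b : Fin 3 → ℝ) (c : ℝ) : ∑ j, (a j - c * b j) ^ 2
    = ∑ j, a j ^ 2 - 2 * c * (∑ j, a j * b j) + c ^ 2 * ∑ j, b j ^ 2 := by
  simp only [Fin.sum_univ_three]; ring

lemma aa_row (h : 0 < rr u x) (i : Fin 3) :
    ∑ j, aa u i j x ^ 2 ≤ ∑ j, pd j (nu (phi u) i) x ^ 2 := by
  have h2 := sum_nu_sq (gs_pos_of_rr h)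
  unfold aa
  set c := ∑ k, pd k (nu (phi u) i) x * nu (phi u) k x with hc
  have : ∑ j, (pd j (nu (phi u) i) x - c * nu (phi u) j x) ^ 2
      = ∑ j, pd j (nu (phi u) i) x ^ 2 - 2 * c * (∑ j, pd j (nu (phi u) i) x * nu (phi u) j x)
        + c ^ 2 * ∑ j, nu (phi u) j x ^ 2 := by
    exact sum_sq_sub3 _ _ c
  rw [this, ← hc, h2]
  nlinarith [sq_nonneg c]

theorem exists_curv_bound : ∃ C : ℝ, 1 ≤ C ∧ ∀ u : R3 → ℝ, Sol u → (∀ x, |u x| < 1) →
    ∀ x, qq u x ≤ 1 / 2 → |hh u x| ≤ C * qq u x ∧ |kk u x| ≤ C * qq u x := by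
  obtain ⟨C, hC1, hC⟩ := H283.exists_dn_bound 3
  set c := 3 * H283.cH 3 2 with hc
  refine ⟨2 * |c| + 2 * c ^ 2 + C, by nlinarith [abs_nonneg c, sq_nonneg c], ?_⟩
  intro u hu h1 x hq
  have hr := rr_half hq
  have hr0 : 0 < rr u x := by linarith
  have hf := ff_pos h1 x
  have hq0 := H586.qq_nonneg hu h1 x
  have hrs : 1 / 2 ≤ rr u x ^ 2 := by rw [rr_sq]; linarith
  have hw : 0 < wn u x := by rw [wn_u hu h1]; positivity
  have hg : 0 < gs u x := by rw [← wn_sq]; positivity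
  have hD := H586.defi_eq_qq hu h1 x
  -- H
  have hm : hh u x = mc u x := by
    unfold hh mc; simp_rw [nu_phi hu h1]
  have k1 := H283.wn_sq_mc_le hu hg
  rw [hD, wn_u hu h1, ← hm] at k1
  push_cast at k1
  have k2 : rr u x ^ 2 * |hh u x| ≤ c * qq u x := by
    have : ff u x ^ 2 * (rr u x ^ 2 * |hh u x|) ≤ ff u x ^ 2 * (c * qq u x) := by
      rw [hc]; nlinarith
    exact le_of_mul_le_mul_left this (by positivity)
  have k3 : |hh u x| ≤ 2 * |c| * qq u x := by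
    have : c * qq u x ≤ |c| * qq u x := mul_le_mul_of_nonneg_right (le_abs_self c) hq0
    nlinarith [abs_nonneg (hh u x)]
  -- A
  have k4 := hC u hu x hg
  rw [hD, wn_u hu h1] at k4
  have k5 : rr u x ^ 2 * dn u x ≤ C * qq u x := by
    have : ff u x ^ 2 * (rr u x ^ 2 * dn u x) ≤ ff u x ^ 2 * (C * qq u x) := by nlinarith
    exact le_of_mul_le_mul_left this (by positivity)
  have k6 : dn u x ≤ 2 * C * qq u x := by nlinarith [dn_nonneg (u := u) (x := x)]
  have k7 : a2 u x ≤ dn u x := by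
    unfold a2 dn
    refine Finset.sum_le_sum fun i _ => ?_
    have := aa_row hr0 i
    rwa [nu_phi hu h1] at this
  have k8 : 0 ≤ a2 u x := by unfold a2; positivity
  have k9 : hh u x ^ 2 ≤ 4 * c ^ 2 * qq u x := by
    have : hh u x ^ 2 ≤ (2 * |c| * qq u x) ^ 2 := by
      rw [← sq_abs (hh u x)]; gcongr
    have e : (2 * |c| * qq u x) ^ 2 = 4 * c ^ 2 * (qq u x * qq u x) := by
      rw [mul_pow, mul_pow, sq_abs]; ring
    have : qq u x * qq u x ≤ qq u x := by nlinarith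
    nlinarith [sq_nonneg c]
  constructor
  · nlinarith [sq_nonneg c]
  · unfold kk
    rw [abs_div, abs_of_pos (by norm_num : (0:ℝ) < 2), div_le_iff₀ (by norm_num), abs_le]
    constructor
    · nlinarith [sq_nonneg c, abs_nonneg c, sq_nonneg (hh u x), mul_nonneg (abs_nonneg c) hq0,
        mul_nonneg (sq_nonneg c) hq0]
    · nlinarith [sq_nonneg c, abs_nonneg c, mul_nonneg (abs_nonneg c) hq0,
        mul_nonneg (sq_nonneg c) hq0]

end Vale.Agent.P134.H930
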