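import Vale.Agent.P134.H930.CI
import Vale.Agent.P134.H16.NUM
import Vale.Agent.P134.H821.Final

set_option linter.all false

/-! Assembly of `StMIS` from the pieces A, B1, B2, C. -/

namespace Vale.Agent.P134.H930

open Vale.Agent.P134 Vale.Agent.P134.SM Vale.Agent.P134.LI Vale.Agent.P134.H377 MeasureTheory Filter Topology
open scoped ENNReal

variable {u : R3 → ℝ} {x y z : R3} {t : ℝ} {s3 K L ε δ W κ lam : ℝ} {B : Set R3} {w : ℝ → ℝ}
  {om v : R3 → ℝ}

theorem hInj : HInj := fun s3 _ => H821.injK s3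

lemma integrable_w (hw : Continuous w) (hws : ∀ s, s3 ≤ |s| → w s = 0) : Integrable w := by
  apply hw.integrable_of_hasCompactSupport
  apply HasCompactSupport.of_support_subset_isCompact (isCompact_Icc (a := -s3) (b := s3))
  intro s hs
  have := abs_lt_of_w hws hs
  exact ⟨(abs_lt.mp this).1.le, (abs_lt.mp this).2.le⟩

lemma QE_lt_top (d : Dat s3 δ W u B w om v) (hl : 0 < lam) : QE lam W u B w < ⊤ := by
  refine lt_of_le_of_lt ?_ (lintegral_GE_lt_top hl)
  unfold QE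
  refine (setLIntegral_le_lintegral _ _).trans (lintegral_mono fun x => ?_)
  unfold GE
  apply ENNReal.ofReal_le_ofReal
  have h1 := d.hw0 (phi u x)
  have h2 := rr_le_one d.hu d.hl x
  have h3 := rr_nonneg u x
  have h4 := H586.qq_nonneg d.hu d.hl x
  have h5 := H586.qq_le_one u x
  have h6 : w (phi u x) * rr u x ≤ 1 := mul_le_one₀ h1.2 h3 h2
  have h7 : w (phi u x) * rr u x * qq u x ≤ 1 := mul_le_one₀ h6 h4 h5
  have h8 : (0:ℝ) ≤ Gw lam x ^ 2 := by positivity
  nlinarith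

lemma QE_toReal (d : Dat s3 δ W u B w om v) :
    (QE lam W u B w).toReal = ∫ x, iA B (W / 2) (3 * W) x *
        (w (phi u x) * rr u x * qq u x * Gw lam x ^ 2) := by
  unfold QE
  have hZ := measurableSet_ring B (W / 2) (3 * W)
  have hm : Measurable fun x : R3 => w (phi u x) * rr u x * qq u x * Gw lam x ^ 2 := by
    have h1 : Measurable (fun x : R3 => w (phi u x)) :=
      d.hw.measurable.comp (continuous_phi d.hu d.hl).measurable
    have h2 := measurable_rr u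
    have h3 := measurable_qq u
    have h4 := (continuous_Gw lam).measurable
    exact ((h1.mul h2).mul h3).mul (h4.pow_const 2)
  have e1 : ∫ x, iA B (W / 2) (3 * W) x * (w (phi u x) * rr u x * qq u x * Gw lam x ^ 2)
      = ∫ x in {x | Far B (W / 2) x ∧ ¬ Far B (3 * W) x},
        w (phi u x) * rr u x * qq u x * Gw lam x ^ 2 := by
    rw [← integral_indicator hZ]
    refine integral_congr_ae (Filter.Eventually.of_forall fun x => ?_)
    simp only
    by_cases hx : x ∈ {x | Far B (W / 2) x ∧ ¬ Far B (3 * W) x}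
    · rw [Set.indicator_of_mem hx]
      unfold iA
      rw [if_pos (show Far B (W / 2) x ∧ ¬ Far B (3 * W) x from hx), one_mul]
    · rw [Set.indicator_of_notMem hx]
      unfold iA
      rw [if_neg (show ¬ (Far B (W / 2) x ∧ ¬ Far B (3 * W) x) from hx), zero_mul]
  rw [e1, integral_eq_lintegral_of_nonneg_ae]
  · exact Filter.Eventually.of_forall fun x => by
      have h1 := (d.hw0 (phi u x)).1
      have h3 := rr_nonneg u x
      have h4 := H586.qq_nonneg d.hu d.hl x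
      simp only [Pi.zero_apply]
      positivity
  · exact hm.aestronglyMeasurable

lemma near_int_le (n : Num s3 K ε δ W L κ lam) (hB : Latt B) :
    ∫⁻ x in {x | ¬ Far B (3 * W) x}, GE lam x
      ≤ ENNReal.ofReal (216 * SM.vb 3 * W ^ 3) * SB lam B := by
  have hl := n.l0
  have hW : 0 < W := by have := n.L1; have := n.LW; have := n.s3pos; linarith
  refine (lintegral_GE_near hl.le hB (by positivity : (0:ℝ) ≤ 3 * W)).trans ?_
  refine mul_le_mul_left (ENNReal.ofReal_le_ofReal ?_) _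
  have hvb := SM.vb_pos 3
  have h1 : 2 * lam * (3 * W) ≤ 2 := by have := n.l1; nlinarith
  have h2 : Real.exp (2 * lam * (3 * W)) ≤ 8 := by
    calc Real.exp (2 * lam * (3 * W)) ≤ Real.exp 2 := Real.exp_le_exp.mpr h1
      _ ≤ 8 := by
        have h3 := Real.exp_one_lt_d9
        have h4 := Real.exp_pos 1
        have h5 : Real.exp 2 = Real.exp 1 ^ 2 := by rw [← Real.exp_nat_mul]; norm_num
        rw [h5]; nlinarith
  calc Real.exp (2 * lam * (3 * W)) * (SM.vb 3 * (3 * W) ^ 3)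
      ≤ 8 * (SM.vb 3 * (3 * W) ^ 3) := by gcongr
    _ = _ := by ring

/-- measurability. -/
lemma measurable_h1 (d : Dat s3 δ W u B w om v) : Measurable (h1 lam u w v) := by
  unfold h1
  have a1 : Measurable (fun z : R3 × ℝ => w z.2) := d.hw.measurable.comp measurable_snd
  have a2 : Measurable (fun z : R3 × ℝ => Gw lam z.1 ^ 2) :=
    ((continuous_Gw lam).measurable.comp measurable_fst).pow_const 2
  have a3 : Measurable (fun z : R3 × ℝ => ff u z.1 ^ 2) :=
    ((continuous_ff d.hu).measurable.comp measurable_fst).pow_const 2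
  have a4 : Measurable (fun z : R3 × ℝ => v z.1) := d.hv.comp measurable_fst
  exact a1.mul ((a2.mul a3).mul a4)

lemma measurable_h2 (d : Dat s3 δ W u B w om v) : Measurable (h2 ε κ lam u w om v) := by
  unfold h2
  have a1 : Measurable (fun z : R3 × ℝ => w (phi u z.1)) :=
    d.hw.measurable.comp ((continuous_phi d.hu d.hl).measurable.comp measurable_fst)
  have a2 : Measurable (fun z : R3 × ℝ => rr u z.1) := (measurable_rr u).comp measurable_fst
  have a3 : Measurable (fun z : R3 × ℝ => (Gw lam z.1 * om z.1) ^ 2) :=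
    (((continuous_Gw lam).measurable.mul d.hom.measurable).comp measurable_fst).pow_const 2
  have a4 := measurable_jj u
  have a5 := measurable_prf ε κ d.hu d.hl
  have a6 : Measurable (fun z : R3 × ℝ => v (xt u z.1 z.2)) := d.hv.comp (measurable_xt u)
  exact ((a1.mul a2).mul a3).mul ((a4.mul (a5.pow_const 2)).mul a6)

lemma integrable_h1 (d : Dat s3 δ W u B w om v) (hl : 0 < lam) :
    Integrable (h1 lam u w v) ∧ ∫ z, h1 lam u w v z
      = (∫ s, w s) * (∫ x, Gw lam x ^ 2 * ff u x ^ 2 * v x) := by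
  have i1 := integrable_w d.hw d.hws
  have i2 : Integrable (fun x : R3 => Gw lam x ^ 2 * ff u x ^ 2 * v x) := by
    refine (integrable_Gw_sq hl).mono' ?_ (Filter.Eventually.of_forall fun x => ?_)
    · exact ((((continuous_Gw lam).measurable.pow_const 2).mul
        ((continuous_ff d.hu).measurable.pow_const 2)).mul d.hv).aestronglyMeasurable
    · rw [Real.norm_eq_abs, abs_mul, abs_mul, abs_of_nonneg (sq_nonneg _),
        abs_of_nonneg (sq_nonneg _)]
      have a1 := ff_sq_le d.hu x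
      have a2 := d.hv1 x
      have a3 : ff u x ^ 2 * |v x| ≤ 1 := mul_le_one₀ (by linarith) (abs_nonneg _) a2
      have a4 : (0:ℝ) ≤ Gw lam x ^ 2 := by positivity
      nlinarith
  have e : h1 lam u w v = fun z : R3 × ℝ => (Gw lam z.1 ^ 2 * ff u z.1 ^ 2 * v z.1) * w z.2 := by
    funext z; unfold h1; ring
  constructor
  · rw [e, Measure.volume_eq_prod]
    exact i2.mul_prod i1
  · rw [e, Measure.volume_eq_prod]
    rw [integral_prod_mul (fun x : R3 => Gw lam x ^ 2 * ff u x ^ 2 * v x) w]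
    ring

/-- the analytic part: everything in terms of the four lower integrals. -/
theorem mis_core (d : Dat s3 δ W u B w om v) (n : Num s3 K ε δ W L κ lam)
    {aQ aS : ℝ} (haQ : 0 ≤ aQ) (haS : 0 ≤ aS)
    (hsum : (∫⁻ z in MM s3 K L u, ENNReal.ofReal |ht lam u w v z - h2 ε κ lam u w om v z|)
      + (∫⁻ p in (Theta u '' MM s3 K L u)ᶜ, ENNReal.ofReal |h1 lam u w v p|)
      + (∫⁻ z in (MM s3 K L u)ᶜ, ENNReal.ofReal |h2 ε κ lam u w om v z|)
      ≤ ENNReal.ofReal aQ * QE lam W u B w + ENNReal.ofReal aS * SB lam B) :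
    |(∫ s, w s) * (∫ x, Gw lam x ^ 2 * ff u x ^ 2 * v x)
      - ∫ x, w (phi u x) * rr u x * (Gw lam x * om x) ^ 2 *
        ∫ t, jj u x t * prf ε κ u x t ^ 2 * v (xt u x t)|
    ≤ aQ * (∫ x, iA B (W / 2) (3 * W) x *
        (w (phi u x) * rr u x * qq u x * Gw lam x ^ 2))
      + aS * ∑' b : B, Gw lam b ^ 2 := by
  have hl := n.l0
  have hC := n.cst
  set M := MM s3 K L u with hM
  have hMm : MeasurableSet M := measurableSet_MM d.hu d.hl
  have hφ := phi_c2 d.hu d.hl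
  have hrr : ∀ z ∈ M, 0 < rr u z.1 := fun z hz => by
    have := MM_rr hC d.hu d.hl hz; linarith
  have hjj : ∀ z ∈ M, 0 ≤ jj u z.1 z.2 := fun z hz => by
    have := (MM_jj hC d.hu d.hl hz).1; linarith
  have hinj := MM_inj (L := L) hC d.hu d.hl
  have hIm : MeasurableSet (Theta u '' M) := measurableSet_image_Theta hφ hMm hinj hrr
  obtain ⟨hI1, hE1⟩ := integrable_h1 (om := om) d hl
  have hm1 := measurable_h1 (lam := lam) d
  have hm2 := measurable_h2 (ε := ε) (κ := κ) (lam := lam) d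
  have hQ := QE_lt_top d hl
  have hS := SB_lt_top hl d.hB
  have hfin : ENNReal.ofReal aQ * QE lam W u B w + ENNReal.ofReal aS * SB lam B < ⊤ :=
    ENNReal.add_lt_top.mpr ⟨ENNReal.mul_lt_top ENNReal.ofReal_lt_top hQ,
      ENNReal.mul_lt_top ENNReal.ofReal_lt_top hS⟩
  set IA := ∫⁻ z in M, ENNReal.ofReal |ht lam u w v z - h2 ε κ lam u w om v z| with hIA
  set IC := ∫⁻ p in (Theta u '' M)ᶜ, ENNReal.ofReal |h1 lam u w v p| with hIC
  set IB := ∫⁻ z in Mᶜ, ENNReal.ofReal |h2 ε κ lam u w om v z| with hIB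
  have hlt := lt_of_le_of_lt hsum hfin
  have hA : IA < ⊤ := lt_of_le_of_lt (le_self_add.trans le_self_add) hlt
  have hCf : IC < ⊤ := lt_of_le_of_lt (le_add_self.trans le_self_add) hlt
  have hBf : IB < ⊤ := lt_of_le_of_lt le_add_self hlt
  -- integrability of `ht` on `M`
  have hIt : IntegrableOn (ht lam u w v) M := by
    have := (integrableOn_image_Theta_iff hφ hMm hinj hrr hjj (h1 lam u w v)).mp
      hI1.integrableOn
    exact this
  have hmt : Measurable (ht lam u w v) := by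
    unfold ht
    have a1 : Measurable (fun z : R3 × ℝ => rr u z.1) := (measurable_rr u).comp measurable_fst
    have a2 := measurable_jj u
    have a3 : Measurable (Theta u) := by
      unfold Theta
      exact (measurable_xt u).prodMk
        ((continuous_phi d.hu d.hl).measurable.comp measurable_fst)
    exact (a1.mul a2).mul (hm1.comp a3)
  have hId : IntegrableOn (fun z => ht lam u w v z - h2 ε κ lam u w om v z) M := by
    refine ⟨(hmt.sub hm2).aestronglyMeasurable, ?_⟩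
    rw [hasFiniteIntegral_iff_norm]
    simp_rw [Real.norm_eq_abs]
    exact hA
  have hI2M : IntegrableOn (h2 ε κ lam u w om v) M := by
    have := hIt.sub hId
    refine this.congr_fun_ae (Filter.Eventually.of_forall fun z => ?_)
    simp
  have hI2C : IntegrableOn (h2 ε κ lam u w om v) Mᶜ := by
    refine ⟨hm2.aestronglyMeasurable, ?_⟩
    rw [hasFiniteIntegral_iff_norm]
    simp_rw [Real.norm_eq_abs]
    exact hBf
  have hI2 : Integrable (h2 ε κ lam u w om v) := by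
    have := hI2M.union hI2C
    rwa [Set.union_compl_self, integrableOn_univ] at this
  -- the second integral
  have hE2 : ∫ x, w (phi u x) * rr u x * (Gw lam x * om x) ^ 2 *
        ∫ t, jj u x t * prf ε κ u x t ^ 2 * v (xt u x t) = ∫ z, h2 ε κ lam u w om v z := by
    rw [Measure.volume_eq_prod] at hI2 ⊢
    rw [integral_prod _ hI2]
    refine integral_congr_ae (Filter.Eventually.of_forall fun x => ?_)
    simp only [h2]
    rw [integral_const_mul]
  have hE3 : ∫ z, h1 lam u w v z = (∫ z in M, ht lam u w v z)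
      + ∫ p in (Theta u '' M)ᶜ, h1 lam u w v p := by
    rw [← integral_add_compl hIm hI1, integral_image_Theta hφ hMm hinj hrr hjj]
    rfl
  have hE4 : ∫ z, h2 ε κ lam u w om v z = (∫ z in M, h2 ε κ lam u w om v z)
      + ∫ z in Mᶜ, h2 ε κ lam u w om v z := (integral_add_compl hMm hI2).symm
  have hE5 : (∫ s, w s) * (∫ x, Gw lam x ^ 2 * ff u x ^ 2 * v x)
      - ∫ x, w (phi u x) * rr u x * (Gw lam x * om x) ^ 2 *
        ∫ t, jj u x t * prf ε κ u x t ^ 2 * v (xt u x t)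
      = (∫ z in M, (ht lam u w v z - h2 ε κ lam u w om v z))
        + (∫ p in (Theta u '' M)ᶜ, h1 lam u w v p) - ∫ z in Mᶜ, h2 ε κ lam u w om v z := by
    rw [hE2, ← hE1, hE3, hE4, integral_sub hIt hI2M]
    ring
  rw [hE5]
  have b1 : |∫ z in M, (ht lam u w v z - h2 ε κ lam u w om v z)| ≤ IA.toReal := by
    have := norm_integral_le_lintegral_norm (μ := volume.restrict M)
      (fun z => ht lam u w v z - h2 ε κ lam u w om v z)
    simp_rw [Real.norm_eq_abs] at this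
    exact this
  have b2 : |∫ p in (Theta u '' M)ᶜ, h1 lam u w v p| ≤ IC.toReal := by
    have := norm_integral_le_lintegral_norm (μ := volume.restrict (Theta u '' M)ᶜ)
      (h1 lam u w v)
    simp_rw [Real.norm_eq_abs] at this
    exact this
  have b3 : |∫ z in Mᶜ, h2 ε κ lam u w om v z| ≤ IB.toReal := by
    have := norm_integral_le_lintegral_norm (μ := volume.restrict Mᶜ)
      (h2 ε κ lam u w om v)
    simp_rw [Real.norm_eq_abs] at this
    exact this
  have b4 : IA.toReal + IC.toReal + IB.toReal ≤ aQ * (QE lam W u B w).toReal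
      + aS * (SB lam B).toReal := by
    have h := ENNReal.toReal_mono hfin.ne hsum
    rw [ENNReal.toReal_add (ENNReal.add_lt_top.mpr ⟨hA, hCf⟩).ne hBf.ne,
      ENNReal.toReal_add hA.ne hCf.ne,
      ENNReal.toReal_add (ENNReal.mul_lt_top ENNReal.ofReal_lt_top hQ).ne
        (ENNReal.mul_lt_top ENNReal.ofReal_lt_top hS).ne,
      ENNReal.toReal_mul, ENNReal.toReal_mul, ENNReal.toReal_ofReal haQ,
      ENNReal.toReal_ofReal haS] at h
    exact h
  rw [QE_toReal d, SB_toReal] at b4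
  have b5 : ∀ a b c : ℝ, |a + b - c| ≤ |a| + |b| + |c| := fun a b c => by
    have h1 := abs_sub (a + b) c
    have h2 := abs_add_le a b
    linarith
  refine (b5 _ _ _).trans ?_
  linarith

lemma combine {X1 X2 X3 Q G S : ℝ≥0∞} {a1 a2 b1 b2 c1 c2 g : ℝ} (ha1 : 0 ≤ a1) (ha2 : 0 ≤ a2)
    (hb1 : 0 ≤ b1) (hb2 : 0 ≤ b2) (hc1 : 0 ≤ c1) (hc2 : 0 ≤ c2) (hg : 0 ≤ g)
    (p1 : X1 ≤ ENNReal.ofReal a1 * Q + ENNReal.ofReal a2 * G)
    (p2 : X2 ≤ ENNReal.ofReal b1 * Q + ENNReal.ofReal b2 * G)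
    (p3 : X3 ≤ ENNReal.ofReal c1 * Q + ENNReal.ofReal c2 * S)
    (hG : G ≤ ENNReal.ofReal g * S) :
    X1 + X2 + X3 ≤ ENNReal.ofReal (a1 + b1 + c1) * Q + ENNReal.ofReal ((a2 + b2) * g + c2) * S := by
  rw [ENNReal.ofReal_add (add_nonneg ha1 hb1) hc1, ENNReal.ofReal_add ha1 hb1,
    ENNReal.ofReal_add (mul_nonneg (add_nonneg ha2 hb2) hg) hc2,
    ENNReal.ofReal_mul (add_nonneg ha2 hb2), ENNReal.ofReal_add ha2 hb2]
  calc X1 + X2 + X3 ≤ (ENNReal.ofReal a1 * Q + ENNReal.ofReal a2 * (ENNReal.ofReal g * S))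
        + (ENNReal.ofReal b1 * Q + ENNReal.ofReal b2 * (ENNReal.ofReal g * S))
        + (ENNReal.ofReal c1 * Q + ENNReal.ofReal c2 * S) := by
        refine add_le_add (add_le_add (p1.trans ?_) (p2.trans ?_)) p3
        · exact add_le_add le_rfl (mul_le_mul_right hG _)
        · exact add_le_add le_rfl (mul_le_mul_right hG _)
    _ = _ := by ring

lemma coefQ {K E CC A L : ℝ} (hK : 0 ≤ K) (hE : 0 ≤ E) (hC : 0 ≤ CC) (hL : 0 ≤ L)
    (hA : 6 * K + 128 * K * E + CC ≤ A) :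
    6 * K * (1 + L) ^ 5 + CC * (1 + L) ^ 7 * Real.exp (L / 480) + 128 * K * E * (1 + L) ^ 5
      ≤ A * (1 + L) ^ 8 * Real.exp (L / 480) := by
  have h1L : 1 ≤ 1 + L := by linarith
  have hexp1 : 1 ≤ Real.exp (L / 480) := Real.one_le_exp (by positivity)
  have h5 : (1 + L) ^ 5 ≤ (1 + L) ^ 8 * Real.exp (L / 480) := by
    calc (1 + L) ^ 5 ≤ (1 + L) ^ 8 := pow_le_pow_right₀ h1L (by norm_num)
      _ = (1 + L) ^ 8 * 1 := by ring
      _ ≤ _ := by gcongr
  have h7 : (1 + L) ^ 7 * Real.exp (L / 480) ≤ (1 + L) ^ 8 * Real.exp (L / 480) := by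
    have : (1 + L) ^ 7 ≤ (1 + L) ^ 8 := pow_le_pow_right₀ h1L (by norm_num)
    gcongr
  calc 6 * K * (1 + L) ^ 5 + CC * (1 + L) ^ 7 * Real.exp (L / 480) + 128 * K * E * (1 + L) ^ 5
      = 6 * K * (1 + L) ^ 5 + CC * ((1 + L) ^ 7 * Real.exp (L / 480))
        + 128 * K * E * (1 + L) ^ 5 := by ring
    _ ≤ 6 * K * ((1 + L) ^ 8 * Real.exp (L / 480)) + CC * ((1 + L) ^ 8 * Real.exp (L / 480))
        + 128 * K * E * ((1 + L) ^ 8 * Real.exp (L / 480)) := by gcongr
    _ = (6 * K + 128 * K * E + CC) * ((1 + L) ^ 8 * Real.exp (L / 480)) := by ring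
    _ ≤ A * ((1 + L) ^ 8 * Real.exp (L / 480)) := by gcongr
    _ = _ := by ring

lemma coefS {CC CB A L W lam g : ℝ} (hW : 0 ≤ W) (hC : 0 ≤ CC) (hB : 0 ≤ CB) (hL : 0 ≤ L)
    (hl0 : 0 ≤ lam) (hl1 : lam ≤ Real.exp (-L)) (hg : 0 ≤ g)
    (hA : (24 + CC) * g + CB ≤ A) :
    (24 * lam * (1 + L) ^ 2 + CC * Real.exp (-(2 * L))) * (g * W ^ 3)
      + CB * W ^ 3 * Real.exp (-L) ≤ A * (1 + L) ^ 2 * W ^ 3 * Real.exp (-L) := by
  have h1L : 1 ≤ 1 + L := by linarith
  have h2L : Real.exp (-(2 * L)) ≤ Real.exp (-L) := Real.exp_le_exp.mpr (by linarith)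
  have hp2 : 1 ≤ (1 + L) ^ 2 := one_le_pow₀ h1L
  have hx := Real.exp_pos (-L)
  have e1 : CC * Real.exp (-(2 * L)) ≤ CC * (1 + L) ^ 2 * Real.exp (-L) := by
    calc CC * Real.exp (-(2 * L)) ≤ CC * Real.exp (-L) := by gcongr
      _ = CC * 1 * Real.exp (-L) := by ring
      _ ≤ _ := by gcongr
  have e2 : CB * W ^ 3 * Real.exp (-L) ≤ CB * (1 + L) ^ 2 * W ^ 3 * Real.exp (-L) := by
    calc CB * W ^ 3 * Real.exp (-L) = CB * 1 * W ^ 3 * Real.exp (-L) := by ring
      _ ≤ _ := by gcongr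
  have e3 : 24 * lam * (1 + L) ^ 2 ≤ 24 * (1 + L) ^ 2 * Real.exp (-L) := by
    calc 24 * lam * (1 + L) ^ 2 ≤ 24 * Real.exp (-L) * (1 + L) ^ 2 := by gcongr
      _ = _ := by ring
  calc _ ≤ (24 * (1 + L) ^ 2 * Real.exp (-L) + CC * (1 + L) ^ 2 * Real.exp (-L)) * (g * W ^ 3)
        + CB * (1 + L) ^ 2 * W ^ 3 * Real.exp (-L) := by gcongr
    _ = ((24 + CC) * g + CB) * ((1 + L) ^ 2 * W ^ 3 * Real.exp (-L)) := by ring
    _ ≤ A * ((1 + L) ^ 2 * W ^ 3 * Real.exp (-L)) := by gcongr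
    _ = _ := by ring

/-- the choice of `δ`. -/
noncomputable def dlt (s3 K ε : ℝ) : ℝ :=
  min (1 / (4 * K * (1 + (4 * s3 + 2)) ^ 4 * Real.exp (2 * Real.sqrt 2 * (4 * s3 + 2))))
    (ε / (16 * K ^ 2 * Real.exp 4))

lemma num_intro (hK : Cst s3 K) (hε0 : 0 < ε) (hε1 : ε < 1) (hL1 : 1 ≤ L)
    (hLW : 2 * (L + (4 * s3 + 2)) ≤ W) (hκ0 : 0 < κ) (hκ : κ ≤ Real.exp (-(Real.sqrt 2 * L)) / 2)
    (hl0 : 0 < lam) (hl2 : 4 * W * lam ≤ 1) :
    0 < dlt s3 K ε ∧ Num s3 K ε (dlt s3 K ε) W L κ lam := by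
  have hs := hK.s3pos
  have hK1 := hK.one_le
  have hK0 : 0 < K := by linarith
  have hp1 : 0 < 4 * K * (1 + (4 * s3 + 2)) ^ 4 * Real.exp (2 * Real.sqrt 2 * (4 * s3 + 2)) := by
    positivity
  have hp2 : 0 < 16 * K ^ 2 * Real.exp 4 := by positivity
  have hd : 0 < dlt s3 K ε := lt_min (by positivity) (by positivity)
  refine ⟨hd, hK, hε0, hε1, hd, ?_, ?_, hL1, hLW, hκ0, ?_, hl0, hl2⟩
  · refine (mul_le_mul_of_nonneg_left (min_le_left _ _) hp1.le).trans (le_of_eq ?_)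
    exact mul_one_div_cancel hp1.ne'
  · refine (mul_le_mul_of_nonneg_left (min_le_right _ _) hp2.le).trans (le_of_eq ?_)
    exact mul_div_cancel₀ _ hp2.ne'
  · have h1 : κ ^ 2 ≤ (Real.exp (-(Real.sqrt 2 * L)) / 2) ^ 2 := by gcongr
    have h2 : (Real.exp (-(Real.sqrt 2 * L)) / 2) ^ 2 * Real.exp (2 * Real.sqrt 2 * L) = 1 / 4 := by
      rw [div_pow, sq, ← Real.exp_add, div_mul_eq_mul_div, ← Real.exp_add]
      rw [show -(Real.sqrt 2 * L) + -(Real.sqrt 2 * L) + 2 * Real.sqrt 2 * L = 0 by ring,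
        Real.exp_zero]
      norm_num
    have h3 := mul_le_mul_of_nonneg_right h1 (Real.exp_pos (2 * Real.sqrt 2 * L)).le
    rw [h2] at h3
    linarith

lemma pieces_sum {CB CC : ℝ} (hCB : 0 < CB) (hCC : 0 < CC) (hA : StPA) (hB1 : StPB1)
    (hPB2 : ∀ (K ε δ W L κ lam : ℝ), Num s3 K ε δ W L κ lam →
      ∀ (u : R3 → ℝ) (B : Set R3) (w : ℝ → ℝ) (om v : R3 → ℝ), Dat s3 δ W u B w om v →
      ∫⁻ z in {z : R3 × ℝ | L < |z.2|}, ENNReal.ofReal |h2 ε κ lam u w om v z|
        ≤ ENNReal.ofReal (CB * W ^ 3 * Real.exp (-L)) * SB lam B)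
    (hPC : ∀ (ε δ W L κ lam : ℝ), Num s3 K ε δ W L κ lam →
      ∀ (u : R3 → ℝ) (B : Set R3) (w : ℝ → ℝ) (om v : R3 → ℝ), Dat s3 δ W u B w om v →
      ∫⁻ p in (Theta u '' MM s3 K L u)ᶜ, ENNReal.ofReal |h1 lam u w v p|
        ≤ ENNReal.ofReal (CC * (1 + L) ^ 7 * Real.exp (L / 480)) * QE lam W u B w
          + ENNReal.ofReal (CC * Real.exp (-(2 * L)))
            * ∫⁻ x in {x | ¬ Far B (3 * W) x}, GE lam x)
    (d : Dat s3 δ W u B w om v) (n : Num s3 K ε δ W L κ lam) :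
    (∫⁻ z in MM s3 K L u, ENNReal.ofReal |ht lam u w v z - h2 ε κ lam u w om v z|)
      + (∫⁻ p in (Theta u '' MM s3 K L u)ᶜ, ENNReal.ofReal |h1 lam u w v p|)
      + (∫⁻ z in (MM s3 K L u)ᶜ, ENNReal.ofReal |h2 ε κ lam u w om v z|)
      ≤ ENNReal.ofReal (6 * K * (1 + L) ^ 5 + CC * (1 + L) ^ 7 * Real.exp (L / 480)
          + 128 * K * Real.exp (2 * Real.sqrt 2 * s3) * (1 + L) ^ 5) * QE lam W u B w
        + ENNReal.ofReal ((24 * lam * (1 + L) ^ 2 + CC * Real.exp (-(2 * L)))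
            * (216 * SM.vb 3 * W ^ 3) + CB * W ^ 3 * Real.exp (-L)) * SB lam B := by
  have hK0 := n.Kpos
  have hL1 := n.L1
  have hl0 := n.l0
  have hs := n.s3pos
  have hvb := SM.vb_pos 3
  have hW : 0 < W := by have := n.LW; linarith
  have p1 := hA s3 K ε δ W L κ lam n u B w om v d
  have p2 := hPC ε δ W L κ lam n u B w om v d
  have p3 : ∫⁻ z in (MM s3 K L u)ᶜ, ENNReal.ofReal |h2 ε κ lam u w om v z|
      ≤ ENNReal.ofReal (128 * K * Real.exp (2 * Real.sqrt 2 * s3) * (1 + L) ^ 5) * QE lam W u B w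
        + ENNReal.ofReal (CB * W ^ 3 * Real.exp (-L)) * SB lam B := by
    have hsub : (MM s3 K L u)ᶜ ⊆ ({z : R3 × ℝ | |z.2| ≤ L} \ MM s3 K L u)
        ∪ {z : R3 × ℝ | L < |z.2|} := by
      intro z hz
      rcases le_or_gt |z.2| L with h | h
      · exact Or.inl ⟨h, hz⟩
      · exact Or.inr h
    refine (lintegral_mono_set hsub).trans ((lintegral_union_le _ _ _).trans ?_)
    exact add_le_add (hB1 s3 K ε δ W L κ lam n u B w om v d)
      (hPB2 K ε δ W L κ lam n u B w om v d)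
  exact combine (by positivity) (by positivity) (by positivity) (by positivity) (by positivity)
    (by positivity) (by positivity) p1 p2 p3 (near_int_le n d.hB)

/-- **StMIS** from the pieces. -/
theorem mis (hI : HInj) (hA : StPA) (hB1 : StPB1) (hB2 : StPB2) : StMIS := by
  intro s3 ε hs hε0 hε1
  obtain ⟨K, hK⟩ := exists_cst hI hs
  obtain ⟨CB, hCB, hPB2⟩ := hB2 s3 hs
  obtain ⟨CC, hCC, hPC⟩ := piece_C s3 K hK
  have hK1 := hK.one_le
  have hK0 : 0 < K := by linarith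
  have hvb := SM.vb_pos 3
  have hE3p : 0 < Real.exp (2 * Real.sqrt 2 * s3) := Real.exp_pos _
  obtain ⟨A, hAdef⟩ : ∃ A, A = 6 * K + 128 * K * Real.exp (2 * Real.sqrt 2 * s3) + CC
    + (24 + CC) * (216 * SM.vb 3) + CB + 2 * (4 * s3 + 2) := ⟨_, rfl⟩
  have hA0 : 0 < A := by rw [hAdef]; positivity
  have hA1 : 6 * K + 128 * K * Real.exp (2 * Real.sqrt 2 * s3) + CC ≤ A := by
    have : 0 ≤ (24 + CC) * (216 * SM.vb 3) + CB + 2 * (4 * s3 + 2) := by positivity
    rw [hAdef]; linarith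
  have hA2 : (24 + CC) * (216 * SM.vb 3) + CB ≤ A := by
    have : 0 ≤ 6 * K + 128 * K * Real.exp (2 * Real.sqrt 2 * s3) + CC + 2 * (4 * s3 + 2) := by
      positivity
    rw [hAdef]; linarith
  have hA3 : 2 * (4 * s3 + 2) ≤ A := by
    have : 0 ≤ 6 * K + 128 * K * Real.exp (2 * Real.sqrt 2 * s3) + CC
      + (24 + CC) * (216 * SM.vb 3) + CB := by positivity
    rw [hAdef]; linarith
  obtain ⟨W0, hW01, hnum⟩ := H16.num A hA0
  have hd0 : 0 < dlt s3 K ε := by
    unfold dlt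
    exact lt_min (by positivity) (by positivity)
  refine ⟨dlt s3 K ε, W0, hd0, by linarith, ?_⟩
  intro W hW
  obtain ⟨hn1, hn2, hn3, hn4⟩ := hnum W hW
  have hWpos : 0 < W := by linarith
  obtain ⟨L, hL⟩ : ∃ L, L = 60 * Real.log W := ⟨_, rfl⟩
  rw [← hL] at hn1 hn2 hn3 hn4
  refine ⟨Real.exp (-(Real.sqrt 2 * L)) / 2, by positivity, ?_⟩
  intro κ hκ0 hκ
  refine ⟨min (Real.exp (-L)) (1 / (4 * W)), by positivity, ?_⟩
  intro u hu B hBl hq lam hlam0 hlam w hw hw0 hws om hom hom0 hom1 hom2 v hv hv1 hv2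
  have hl1 : lam ≤ Real.exp (-L) := hlam.trans (min_le_left _ _)
  have hl2 : 4 * W * lam ≤ 1 := by
    have h := hlam.trans (min_le_right _ _)
    rw [le_div_iff₀ (by positivity)] at h
    linarith
  have d : Dat s3 (dlt s3 K ε) W u B w om v :=
    ⟨hu.toSol, hu.lt, hBl, hq, hw, hw0, hws, hom, hom0, hom1, hom2, hv, hv1, hv2⟩
  obtain ⟨-, n⟩ := num_intro hK hε0 hε1 hn1 (by linarith) hκ0 hκ hlam0 hl2
  have hsum := pieces_sum hCB hCC hA hB1 hPB2 hPC d n
  have hLp : 0 ≤ L := by linarith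
  have hmain := mis_core d n (by positivity) (by positivity) hsum
  have hq1 : 0 ≤ ∫ x, iA B (W / 2) (3 * W) x *
        (w (phi u x) * rr u x * qq u x * Gw lam x ^ 2) := by
    rw [← QE_toReal d]; exact ENNReal.toReal_nonneg
  have hs1 : 0 ≤ ∑' b : B, Gw lam b ^ 2 := tsum_nonneg fun b => by positivity
  have hQ := (coefQ hK0.le hE3p.le hCC.le hLp hA1).trans hn3
  have hS := (coefS hWpos.le hCC.le hCB.le hLp hlam0.le hl1 (by positivity) hA2).trans hn4
  exact hmain.trans (add_le_add (mul_le_mul_of_nonneg_right hQ hq1)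
    (mul_le_mul_of_nonneg_right hS hs1))

end Vale.Agent.P134.H930
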