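import Vale.Agent.P134.H930.HK
import Vale.Agent.P134.H147.RayMain
import Vale.Agent.P134.H291.Dec

set_option linter.all false

/-! Constants, the good part `MM` of the tube, level points, the slab mass lemma. -/

namespace Vale.Agent.P134.H930

open Vale.Agent.P134 Vale.Agent.P134.SM Vale.Agent.P134.LI Vale.Agent.P134.H377 MeasureTheory Filter Topology
open scoped ENNReal

variable {u : R3 → ℝ} {x y z : R3} {t : ℝ}

/-- The injectivity input (block INJ). -/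
def HInj : Prop := ∀ s3 : ℝ, 0 < s3 → ∃ K : ℝ, 1 ≤ K ∧ ∀ u : R3 → ℝ, Sol u → (∀ x, |u x| < 1) →
  Set.InjOn (Theta u) {z : R3 × ℝ | |phi u z.1| ≤ s3 ∧
    K * (1 + |z.2|) ^ 4 * Real.exp (2 * Real.sqrt 2 * |z.2|) * qq u z.1 ≤ 1}

/-- All the estimates which are used, with one constant. -/
structure Cst (s3 K : ℝ) : Prop where
  s3pos : 0 < s3
  one_le : 1 ≤ K
  inj : ∀ u : R3 → ℝ, Sol u → (∀ x, |u x| < 1) →
    Set.InjOn (Theta u) {z : R3 × ℝ | |phi u z.1| ≤ s3 ∧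
      K * (1 + |z.2|) ^ 4 * Real.exp (2 * Real.sqrt 2 * |z.2|) * qq u z.1 ≤ 1}
  curv : ∀ u : R3 → ℝ, Sol u → (∀ x, |u x| < 1) → ∀ x, qq u x ≤ 1 / 2 →
    |hh u x| ≤ K * qq u x ∧ |kk u x| ≤ K * qq u x
  pn_le : ∀ u : R3 → ℝ, Sol u → (∀ x, |u x| < 1) → ∀ x, |phi u x| ≤ s3 → ∀ t,
    1 - H147.pn u x t ≤ K * (1 + |t|) ^ 2 * Real.exp (2 * Real.sqrt 2 * |t|) * qq u x
  fsq : ∀ u : R3 → ℝ, Sol u → (∀ x, |u x| < 1) → ∀ x, |phi u x| ≤ s3 → ∀ t,
    qq u x * Real.exp (2 * Real.sqrt 2 * |t|) ≤ 1 →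
      |ff u (xt u x t) ^ 2 - g1 (phi u x + t) ^ 2| ≤ K * (1 + |t|) ^ 4 * qq u x
  dec : ∀ u : R3 → ℝ, Sol u → ∀ (x : R3) (L : ℝ), 0 ≤ L → (∀ y, eno (x - y) < L → u y ≠ 0) →
    ff u x ≤ K * Real.exp (-((Real.sqrt 2 - 1 / 960) * L))

theorem exists_cst (hI : HInj) {s3 : ℝ} (hs : 0 < s3) : ∃ K, Cst s3 K := by
  obtain ⟨K1, hK1, h1⟩ := hI s3 hs
  obtain ⟨K2, hK2, h2⟩ := exists_curv_bound
  obtain ⟨c1, K3, hc1, hK3, h3⟩ := H147.ray s3 hs
  obtain ⟨K4, hK4, h4⟩ := H291.dec (1 / 960) (by norm_num)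
  refine ⟨K1 + K2 + K3 + K4, hs, by linarith, ?_, ?_, ?_, ?_, ?_⟩
  · intro u hu hl
    refine (h1 u hu hl).mono ?_
    rintro z ⟨ha, hb⟩
    refine ⟨ha, le_trans ?_ hb⟩
    have := H586.qq_nonneg hu hl z.1
    gcongr
    linarith
  · intro u hu hl x hx
    have hq := H586.qq_nonneg hu hl x
    obtain ⟨ha, hb⟩ := h2 u hu hl x hx
    have : K2 * qq u x ≤ (K1 + K2 + K3 + K4) * qq u x := by gcongr; linarith
    exact ⟨ha.trans this, hb.trans this⟩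
  · intro u hu hl x hx t
    have hq := H586.qq_nonneg hu hl x
    refine ((h3 u hu hl x hx).2.2.2.2.1 t).trans ?_
    gcongr
    linarith
  · intro u hu hl x hx t ht
    have hq := H586.qq_nonneg hu hl x
    refine ((h3 u hu hl x hx).2.2.2.2.2.2.2.1 t ht).trans ?_
    gcongr
    linarith
  · intro u hu x L hL hz
    refine (h4 u hu x L hL hz).trans ?_
    gcongr
    linarith

variable {s3 K L : ℝ}

/-- the good part of the tube. -/
def MM (s3 K L : ℝ) (u : R3 → ℝ) : Set (R3 × ℝ) :=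
  {z | |phi u z.1| ≤ s3 ∧ |z.2| ≤ L ∧
    4 * K * (1 + L) ^ 4 * Real.exp (2 * Real.sqrt 2 * |z.2|) * qq u z.1 ≤ 1}

lemma measurableSet_MM (hu : Sol u) (hl : ∀ x, |u x| < 1) : MeasurableSet (MM s3 K L u) := by
  unfold MM
  have h1 : Measurable (fun z : R3 × ℝ => |phi u z.1|) :=
    ((continuous_phi hu hl).measurable.comp measurable_fst).abs
  have h2 : Measurable (fun z : R3 × ℝ => |z.2|) := measurable_snd.abs
  have h3 : Measurable (fun z : R3 × ℝ => qq u z.1) := (measurable_qq u).comp measurable_fst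
  have h4 : Measurable (fun z : R3 × ℝ =>
      4 * K * (1 + L) ^ 4 * Real.exp (2 * Real.sqrt 2 * |z.2|) * qq u z.1) :=
    ((measurable_const.mul (Real.measurable_exp.comp (measurable_const.mul h2)))).mul h3
  exact (measurableSet_le h1 measurable_const).inter
    ((measurableSet_le h2 measurable_const).inter (measurableSet_le h4 measurable_const))

lemma MM_inj (h : Cst s3 K) (hu : Sol u) (hl : ∀ x, |u x| < 1) :
    Set.InjOn (Theta u) (MM s3 K L u) := by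
  refine (h.inj u hu hl).mono ?_
  rintro z ⟨ha, hb, hc⟩
  refine ⟨ha, le_trans ?_ hc⟩
  have hq := H586.qq_nonneg hu hl z.1
  have hK := h.one_le
  have hp : (1 + |z.2|) ^ 4 ≤ (1 + L) ^ 4 := by
    have := abs_nonneg z.2
    gcongr
  have : K * (1 + |z.2|) ^ 4 ≤ 4 * K * (1 + L) ^ 4 := by
    have h0 : 0 ≤ (1 + |z.2|) ^ 4 := by positivity
    nlinarith
  gcongr

/-- `4 K (1+L)^4 q ≤ 1` on `MM`. -/
lemma MM_q (h : Cst s3 K) (hu : Sol u) (hl : ∀ x, |u x| < 1) {z : R3 × ℝ}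
    (hz : z ∈ MM s3 K L u) : 4 * K * (1 + L) ^ 4 * qq u z.1 ≤ 1 := by
  obtain ⟨ha, hb, hc⟩ := hz
  have hq := H586.qq_nonneg hu hl z.1
  have hK := h.one_le
  have hL : 0 ≤ L := (abs_nonneg _).trans hb
  have h1 : 1 ≤ Real.exp (2 * Real.sqrt 2 * |z.2|) := Real.one_le_exp (by positivity)
  refine le_trans ?_ hc
  have h0 : 0 ≤ 4 * K * (1 + L) ^ 4 := by positivity
  nlinarith [mul_nonneg h0 hq, mul_nonneg (mul_nonneg h0 hq) (sub_nonneg.mpr h1)]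

lemma q_of_MMq (h : Cst s3 K) (hu : Sol u) (hl : ∀ x, |u x| < 1) (hL : 0 ≤ L)
    (hq : 4 * K * (1 + L) ^ 4 * qq u x ≤ 1) : qq u x ≤ 1 / 4 := by
  have hq0 := H586.qq_nonneg hu hl x
  have hK := h.one_le
  have h1 : 1 ≤ (1 + L) ^ 4 := one_le_pow₀ (by linarith)
  have h2 : 1 ≤ K * (1 + L) ^ 4 := by nlinarith
  nlinarith [mul_nonneg (sub_nonneg.mpr h2) hq0]

lemma jj_of_MMq (h : Cst s3 K) (hu : Sol u) (hl : ∀ x, |u x| < 1) (hL : 0 ≤ L)
    (hq : 4 * K * (1 + L) ^ 4 * qq u x ≤ 1) (ht : |t| ≤ L) :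
    1 / 2 ≤ jj u x t ∧ jj u x t ≤ 3 / 2 := by
  have hq0 := H586.qq_nonneg hu hl x
  have hq4 := q_of_MMq h hu hl hL hq
  have hK := h.one_le
  obtain ⟨hH, hKK⟩ := h.curv u hu hl x (by linarith)
  have e1 : |t * hh u x| ≤ L * (K * qq u x) := by
    rw [abs_mul]; exact mul_le_mul ht hH (abs_nonneg _) hL
  have e2 : |t ^ 2 * kk u x| ≤ L ^ 2 * (K * qq u x) := by
    rw [abs_mul, abs_pow]
    exact mul_le_mul (pow_le_pow_left₀ (abs_nonneg _) ht 2) hKK (abs_nonneg _) (by positivity)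
  have e3 : L + L ^ 2 ≤ (1 + L) ^ 4 := by nlinarith [sq_nonneg L, pow_nonneg hL 3, pow_nonneg hL 4]
  have e4 : (L + L ^ 2) * (K * qq u x) ≤ (1 + L) ^ 4 * (K * qq u x) :=
    mul_le_mul_of_nonneg_right e3 (by positivity)
  have e5 : (1 + L) ^ 4 * (K * qq u x) ≤ 1 / 4 := by nlinarith
  have b1 := abs_le.mp e1
  have b2 := abs_le.mp e2
  unfold jj
  constructor <;> nlinarith [b1.1, b1.2, b2.1, b2.2]

lemma MM_rr (h : Cst s3 K) (hu : Sol u) (hl : ∀ x, |u x| < 1) {z : R3 × ℝ}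
    (hz : z ∈ MM s3 K L u) : 1 / 2 ≤ rr u z.1 := by
  apply rr_half
  have := q_of_MMq h hu hl ((abs_nonneg _).trans hz.2.1) (MM_q h hu hl hz)
  linarith

lemma MM_jj (h : Cst s3 K) (hu : Sol u) (hl : ∀ x, |u x| < 1) {z : R3 × ℝ}
    (hz : z ∈ MM s3 K L u) : 1 / 2 ≤ jj u z.1 z.2 ∧ jj u z.1 z.2 ≤ 3 / 2 :=
  jj_of_MMq h hu hl ((abs_nonneg _).trans hz.2.1) (MM_q h hu hl hz) hz.2.1

/-! ### level points -/

lemma level_pt (h : Cst s3 K) (hu : Sol u) (hl : ∀ x, |u x| < 1) (hx : |phi u x| ≤ s3) {T : ℝ}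
    (hT : 0 ≤ T) (hq : K * (1 + T) ^ 2 * Real.exp (2 * Real.sqrt 2 * T) * qq u x ≤ 1 / 2) {c : ℝ}
    (hc : |c - phi u x| ≤ T / 2) : ∃ y, phi u y = c ∧ eno (y - x) ≤ T := by
  have hq0 := H586.qq_nonneg hu hl x
  have hK := h.one_le
  set F : ℝ → ℝ := fun t => phi u (xt u x t) with hF
  have hd : ∀ t, HasDerivAt F (H147.pn u x t) t := H147.hasDerivAt_phi_xt hu hl x
  have hF0 : F 0 = phi u x := by simp only [hF, H147.xt_zero]
  have hge : ∀ t, |t| ≤ T → 1 / 2 ≤ deriv F t := by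
    intro t ht
    rw [(hd t).deriv]
    have h1 := h.pn_le u hu hl x hx t
    have h2 : K * (1 + |t|) ^ 2 * Real.exp (2 * Real.sqrt 2 * |t|) * qq u x
        ≤ K * (1 + T) ^ 2 * Real.exp (2 * Real.sqrt 2 * T) * qq u x := by
      have := abs_nonneg t
      gcongr
    linarith
  have hcont : Continuous F := continuous_iff_continuousAt.mpr fun t => (hd t).continuousAt
  have key := (convex_Icc (-T) T).mul_sub_le_image_sub_of_le_deriv hcont.continuousOn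
    (fun t _ => (hd t).differentiableAt.differentiableWithinAt) (C := 1 / 2) (by
      intro t ht
      rw [interior_Icc] at ht
      exact hge t (abs_le.mpr ⟨ht.1.le, ht.2.le⟩))
  have k1 := key 0 ⟨by linarith, hT⟩ T ⟨by linarith, le_rfl⟩ hT
  have k2 := key (-T) ⟨le_rfl, by linarith⟩ 0 ⟨by linarith, hT⟩ (by linarith)
  rw [hF0] at k1 k2
  have hc' := abs_le.mp hc
  obtain ⟨t, ht, hFt⟩ := intermediate_value_Icc (by linarith : -T ≤ T) hcont.continuousOn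
    (show c ∈ Set.Icc (F (-T)) (F T) from ⟨by linarith, by linarith⟩)
  refine ⟨xt u x t, hFt, (eno_xt_le u x t).trans (abs_le.mpr ht)⟩

/-! ### comparison of `q` -/

lemma ff_sq_lower (hl : ∀ x, |u x| < 1) (hx : |phi u x| ≤ s3) :
    Real.exp (-(2 * Real.sqrt 2 * s3)) / 2 ≤ ff u x ^ 2 := by
  rw [ff_eq_g1 hl]
  have h := g1_lower (phi u x)
  have h2 : Real.exp (-(Real.sqrt 2 * s3)) / Real.sqrt 2 ≤ g1 (phi u x) := by
    refine le_trans ?_ h
    have := s2pos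
    gcongr
  have h3 : (Real.exp (-(Real.sqrt 2 * s3)) / Real.sqrt 2) ^ 2
      = Real.exp (-(2 * Real.sqrt 2 * s3)) / 2 := by
    rw [div_pow, s2sq, sq, ← Real.exp_add]; congr 2; ring
  rw [← h3]
  have := s2pos
  gcongr

/-- the Harnack constant for `q`. -/
noncomputable def cq (s3 R : ℝ) : ℝ :=
  Real.exp (3 * (2 * H283.cH 3 2) * R) * Real.exp (2 * Real.sqrt 2 * s3)

lemma cq_pos (s3 R : ℝ) : 0 < cq s3 R := by unfold cq; positivity

lemma qq_le_cq (hu : Sol u) (hl : ∀ x, |u x| < 1) (hx : |phi u x| ≤ s3) {R : ℝ}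
    (hy : eno (y - x) ≤ R) : qq u x ≤ cq s3 R * qq u y := by
  have h1 := H283.harnack_defi hu y x
  rw [H586.defi_eq_qq hu hl, H586.defi_eq_qq hu hl] at h1
  have hc := H283.cH_pos 3 (K := 2) (by norm_num)
  have hn : ‖x - y‖ ≤ R := by
    rw [norm_sub_rev]
    refine le_trans ?_ hy
    exact (pi_norm_le_iff_of_nonneg (eno_nonneg _)).mpr fun i => by
      rw [Real.norm_eq_abs]; exact abs_le_eno _ i
  have hqx := H586.qq_nonneg hu hl x
  have hqy := H586.qq_nonneg hu hl y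
  have h2 : Real.exp ((3:ℕ) * (2 * H283.cH 3 2) * ‖x - y‖) ≤ Real.exp (3 * (2 * H283.cH 3 2) * R) := by
    apply Real.exp_le_exp.mpr
    push_cast
    gcongr
  have h3 := ff_sq_le hu y
  have h4 := ff_sq_lower hl hx
  have h5 : Real.exp (-(2 * Real.sqrt 2 * s3)) / 2 * qq u x
      ≤ Real.exp (3 * (2 * H283.cH 3 2) * R) * (1 / 2 * qq u y) := by
    calc Real.exp (-(2 * Real.sqrt 2 * s3)) / 2 * qq u x ≤ ff u x ^ 2 * qq u x := by gcongr
      _ ≤ _ := h1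
      _ ≤ _ := by gcongr
  rw [Real.exp_neg] at h5
  unfold cq
  have h6 := Real.exp_pos (2 * Real.sqrt 2 * s3)
  have h7 : qq u x = 2 * Real.exp (2 * Real.sqrt 2 * s3) *
      ((Real.exp (2 * Real.sqrt 2 * s3))⁻¹ / 2 * qq u x) := by field_simp
  rw [h7]
  calc 2 * Real.exp (2 * Real.sqrt 2 * s3) * ((Real.exp (2 * Real.sqrt 2 * s3))⁻¹ / 2 * qq u x)
      ≤ 2 * Real.exp (2 * Real.sqrt 2 * s3) *
        (Real.exp (3 * (2 * H283.cH 3 2) * R) * (1 / 2 * qq u y)) := by gcongr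
    _ = _ := by ring

end Vale.Agent.P134.H930
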